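import Mathlib

/-!
# P202 mixed characteristic, lattice block: power series over Witt vectors inside Witt vectors

The ring map `W(k)[[Y]] → W(k[[Y]])` sending each variable to its Teichmüller representative, and
its composition with a map `k[[Y]] → T` into a perfect domain.
-/

noncomputable section

namespace Vale.Agent.P202.Mixed.Lattice

open MvPowerSeries Finsupp

variable (σ : Type*) (R : Type*) [CommRing R]

/-- Power series whose coefficients of degree below `m` vanish. -/
def ordIdeal (m : ℕ) : Ideal (MvPowerSeries σ R) where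
  carrier := {f | ∀ α, degree α < m → MvPowerSeries.coeff α f = 0}
  add_mem' {f g} hf hg α hα := by rw [map_add, hf α hα, hg α hα, add_zero]
  zero_mem' α _ := map_zero _
  smul_mem' c f hf α hα := by
    classical
    rw [smul_eq_mul, MvPowerSeries.coeff_mul]
    refine Finset.sum_eq_zero fun x hx => ?_
    rw [Finset.HasAntidiagonal.mem_antidiagonal] at hx
    rw [hf x.2 (lt_of_le_of_lt (degree_mono (le_add_left le_rfl |>.trans_eq hx)) hα), mul_zero]

variable {σ R}

theorem mem_ordIdeal {m : ℕ} {f : MvPowerSeries σ R} :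
    f ∈ ordIdeal σ R m ↔ ∀ α, degree α < m → MvPowerSeries.coeff α f = 0 := Iff.rfl

theorem ordIdeal_zero (f : MvPowerSeries σ R) : f ∈ ordIdeal σ R 0 :=
  fun α h => absurd h (Nat.not_lt_zero _)

theorem ordIdeal_mono {m n : ℕ} (h : m ≤ n) : ordIdeal σ R n ≤ ordIdeal σ R m :=
  fun _ hf α hα => hf α (lt_of_lt_of_le hα h)

theorem mul_mem_ordIdeal {m n : ℕ} {f g : MvPowerSeries σ R} (hf : f ∈ ordIdeal σ R m)
    (hg : g ∈ ordIdeal σ R n) : f * g ∈ ordIdeal σ R (m + n) := fun α hα => by
  classical
  rw [MvPowerSeries.coeff_mul]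
  refine Finset.sum_eq_zero fun x hx => ?_
  rw [Finset.HasAntidiagonal.mem_antidiagonal] at hx
  by_cases h : degree x.1 < m
  · rw [hf _ h, zero_mul]
  · have hd : degree x.1 + degree x.2 = degree α := by rw [← map_add, hx]
    rw [hg _ (by omega), mul_zero]

theorem pow_mem_ordIdeal {m : ℕ} {f : MvPowerSeries σ R} (hf : f ∈ ordIdeal σ R m) :
    ∀ j : ℕ, f ^ j ∈ ordIdeal σ R (j * m)
  | 0 => by rw [Nat.zero_mul]; exact ordIdeal_zero _
  | j + 1 => by rw [pow_succ, Nat.succ_mul]; exact mul_mem_ordIdeal (pow_mem_ordIdeal hf j) hf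

/-- The coefficients of a root vanish in the degrees allowed by the order of the power. -/
theorem coeff_eq_zero_of_pow [IsDomain R] {m j : ℕ} {f : MvPowerSeries σ R}
    (hf : f ^ j ∈ ordIdeal σ R m) {α : σ →₀ ℕ} (hα : j * degree α < m) :
    MvPowerSeries.coeff α f = 0 := by
  by_contra hne
  have h1 : f.order ≤ ((degree α : ℕ) : ℕ∞) := by
    by_contra h
    exact hne (coeff_of_lt_order (not_le.1 h))
  have h2 : (m : ℕ∞) ≤ (f ^ j).order :=
    MvPowerSeries.le_order fun β hβ => hf β (by exact_mod_cast hβ)
  have h3 : (f ^ j).order = j • f.order := by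
    clear h2 hf hα
    induction j with
    | zero =>
      rw [pow_zero, zero_nsmul, nonpos_iff_eq_zero.symm]
      by_contra h
      have := coeff_of_lt_order (f := (1 : MvPowerSeries σ R)) (d := 0)
        (by simpa using pos_iff_ne_zero.2 fun e => h e.le)
      simp at this
    | succ j ih => rw [pow_succ, order_mul, ih, succ_nsmul]
  rw [h3, nsmul_eq_mul] at h2
  obtain ⟨o, ho⟩ := ENat.ne_top_iff_exists.1 (ne_top_of_le_ne_top (ENat.natCast_ne_top _) h1)
  rw [← ho] at h1 h2
  have h4 : m ≤ j * o := by exact_mod_cast h2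
  have h5 : o ≤ degree α := by exact_mod_cast h1
  have := Nat.mul_le_mul_left j h5
  omega

variable (σ) [Finite σ] (p : ℕ) [Fact p.Prime] (k : Type*) [CommRing k]

/-- Reduction of Witt vectors of power series modulo degree `N`. -/
def redW (N : ℕ) : WittVector p (MvPowerSeries σ k) →+*
    WittVector p (MvPowerSeries σ k ⧸ ordIdeal σ k N) :=
  WittVector.map (Ideal.Quotient.mk _)

/-- Evaluation of polynomials at the Teichmüller representatives of the variables. -/
def evalPoly : MvPolynomial σ (WittVector p k) →+* WittVector p (MvPowerSeries σ k) :=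
  MvPolynomial.eval₂Hom (WittVector.map MvPowerSeries.C)
    fun i => WittVector.teichmuller p (MvPowerSeries.X i)

variable {σ p k}

theorem redW_eq_iff {N : ℕ} {v w : WittVector p (MvPowerSeries σ k)} :
    redW σ p k N v = redW σ p k N w ↔ ∀ i α, degree α < N →
      MvPowerSeries.coeff α (v.coeff i) = MvPowerSeries.coeff α (w.coeff i) := by
  simp only [redW, WittVector.ext_iff, WittVector.map_coeff, Ideal.Quotient.mk_eq_mk_iff_sub_mem,
    mem_ordIdeal, map_sub, sub_eq_zero]

theorem redW_evalPoly_zero {N : ℕ} (P : MvPolynomial σ (WittVector p k))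
    (hP : ∀ α, degree α < N → MvPolynomial.coeff α P = 0) :
    redW σ p k N (evalPoly σ p k P) = 0 := by
  rw [P.as_sum, map_sum, map_sum]
  refine Finset.sum_eq_zero fun α hα => ?_
  have hN : N ≤ degree α := not_lt.1 fun h => MvPolynomial.mem_support_iff.1 hα (hP α h)
  rw [evalPoly, MvPolynomial.coe_eval₂Hom, MvPolynomial.eval₂_monomial, map_mul]
  have h : redW σ p k N (α.prod fun i e => WittVector.teichmuller p (MvPowerSeries.X i) ^ e) = 0 := by
    have e1 : (α.prod fun i e => WittVector.teichmuller p (MvPowerSeries.X i : MvPowerSeries σ k) ^ e)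
        = WittVector.teichmuller p (MvPowerSeries.monomial α 1) := by
      rw [MvPowerSeries.monomial_one_eq, map_finsuppProd]
      simp [map_pow]
    rw [e1, redW, WittVector.map_teichmuller]
    have : Ideal.Quotient.mk (ordIdeal σ k N) (MvPowerSeries.monomial α 1) = 0 := by
      refine Ideal.Quotient.eq_zero_iff_mem.2 fun β hβ => ?_
      classical
      rw [MvPowerSeries.coeff_monomial, if_neg]
      rintro rfl
      omega
    rw [this, WittVector.teichmuller_zero]
  rw [h, mul_zero]

/-- Congruent polynomials have congruent values. -/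
theorem redW_evalPoly_congr {N : ℕ} (P Q : MvPolynomial σ (WittVector p k))
    (h : ∀ α, degree α < N → MvPolynomial.coeff α P = MvPolynomial.coeff α Q) :
    redW σ p k N (evalPoly σ p k P) = redW σ p k N (evalPoly σ p k Q) := by
  rw [← sub_eq_zero, ← map_sub, ← map_sub]
  exact redW_evalPoly_zero _ fun α hα => by simp [h α hα]

/-- The underlying function of the evaluation. -/
def evalFun (a : MvPowerSeries σ (WittVector p k)) : WittVector p (MvPowerSeries σ k) :=
  WittVector.mk p fun i α =>
    MvPowerSeries.coeff α ((evalPoly σ p k (truncTotal (degree α + 1) a)).coeff i)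

theorem coeff_evalFun (a : MvPowerSeries σ (WittVector p k)) (i : ℕ) (α : σ →₀ ℕ) :
    MvPowerSeries.coeff α ((evalFun a).coeff i) =
      MvPowerSeries.coeff α ((evalPoly σ p k (truncTotal (degree α + 1) a)).coeff i) := by
  simp only [evalFun, MvPowerSeries.coeff_apply]
  exact congrFun (congrFun (WittVector.coeff_mk _ _) i) α

attribute [irreducible] evalFun evalPoly redW

theorem redW_evalFun (N : ℕ) (a : MvPowerSeries σ (WittVector p k)) :
    redW σ p k N (evalFun a) = redW σ p k N (evalPoly σ p k (truncTotal N a)) := by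
  refine redW_eq_iff.2 fun i α hα => ?_
  have h := redW_evalPoly_congr (N := degree α + 1) (truncTotal (degree α + 1) a) (truncTotal N a)
    fun β hβ => by rw [coeff_truncTotal _ hβ, coeff_truncTotal _ (by omega)]
  rw [coeff_evalFun]
  exact redW_eq_iff.1 h i α (Nat.lt_succ_self _)

theorem ext_redW {v w : WittVector p (MvPowerSeries σ k)}
    (h : ∀ N, redW σ p k N v = redW σ p k N w) : v = w :=
  WittVector.ext fun i => MvPowerSeries.ext fun α =>
    redW_eq_iff.1 (h (degree α + 1)) i α (Nat.lt_succ_self _)

variable (σ p k)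

/-- The ring map `W(k)[[Y]] → W(k[[Y]])`. -/
def evalW : MvPowerSeries σ (WittVector p k) →+* WittVector p (MvPowerSeries σ k) where
  toFun := evalFun
  map_one' := ext_redW fun N => by
    rw [redW_evalFun, redW_evalPoly_congr (truncTotal N (1 : MvPowerSeries σ (WittVector p k))) 1]
    · simp
    intro α hα
    classical
    rw [coeff_truncTotal _ hα, MvPowerSeries.coeff_one, MvPolynomial.coeff_one]
    simp only [eq_comm]
  map_mul' a b := ext_redW fun N => by
    rw [redW_evalFun, map_mul (redW σ p k N), redW_evalFun, redW_evalFun, ← map_mul, ← map_mul]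
    refine redW_evalPoly_congr _ _ fun α hα => ?_
    rw [coeff_truncTotal _ hα, coeff_truncTotal_mul_truncTotal_eq_coeff_mul _ _ hα]
  map_zero' := ext_redW fun N => by rw [redW_evalFun, map_zero, map_zero]
  map_add' a b := ext_redW fun N => by
    rw [redW_evalFun, map_add (redW σ p k N), redW_evalFun, redW_evalFun, map_add, map_add,
      map_add]

variable {σ p k}

theorem evalW_coeff_zero (a : MvPowerSeries σ (WittVector p k)) :
    (evalW σ p k a).coeff 0 = MvPowerSeries.map WittVector.constantCoeff a := by
  ext α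
  show MvPowerSeries.coeff α ((evalFun a).coeff 0) = _
  rw [coeff_evalFun]
  have h : WittVector.constantCoeff.comp (evalPoly σ p k) =
      (MvPolynomial.coeToMvPowerSeries.ringHom).comp
        (MvPolynomial.map (WittVector.constantCoeff (p := p) (R := k))) := by
    refine MvPolynomial.ringHom_ext (fun c => ?_) fun i => ?_
    · simp [evalPoly, WittVector.constantCoeff]
    · simp [evalPoly, WittVector.constantCoeff, WittVector.teichmuller_coeff_zero]
  have h' := congrArg (fun f => f (truncTotal (degree α + 1) a)) h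
  simp only [RingHom.coe_comp, Function.comp_apply] at h'
  rw [WittVector.constantCoeff_apply] at h'
  rw [h', MvPolynomial.coeToMvPowerSeries.ringHom_apply]
  show MvPowerSeries.coeff α ((_ : MvPolynomial σ k) : MvPowerSeries σ k) = _
  rw [MvPolynomial.coeff_coe, MvPolynomial.coeff_map,
    coeff_truncTotal _ (Nat.lt_succ_self _), MvPowerSeries.coeff_map]

/-- The coefficientwise Teichmüller lift. -/
def liftPS (p : ℕ) [Fact p.Prime] (g : MvPowerSeries σ k) : MvPowerSeries σ (WittVector p k) :=
  fun α => WittVector.teichmuller p (MvPowerSeries.coeff α g)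

omit [Finite σ] in
theorem map_liftPS (g : MvPowerSeries σ k) :
    MvPowerSeries.map WittVector.constantCoeff (liftPS p g) = g := by
  ext α
  rw [MvPowerSeries.coeff_map]
  exact WittVector.teichmuller_coeff_zero p _

omit [Finite σ] in
theorem liftPS_mem_ordIdeal {m : ℕ} {g : MvPowerSeries σ k} (hg : g ∈ ordIdeal σ k m) :
    liftPS p g ∈ ordIdeal σ (WittVector p k) m := fun α hα => by
  show WittVector.teichmuller p (MvPowerSeries.coeff α g) = 0
  rw [hg α hα, WittVector.teichmuller_zero]

omit [Finite σ] in
/-- The power of the lift has the order of the power. -/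
theorem liftPS_pow_mem_ordIdeal [IsDomain k] {m j : ℕ} {g : MvPowerSeries σ k}
    (hg : g ^ j ∈ ordIdeal σ k m) (hj : 0 < j) :
    liftPS p g ^ j ∈ ordIdeal σ (WittVector p k) m := by
  have h : g ∈ ordIdeal σ k ((m + j - 1) / j) := fun α hα => by
    refine coeff_eq_zero_of_pow hg ?_
    have h1 := (Nat.le_div_iff_mul_le hj).1 (Nat.succ_le_of_lt hα)
    rw [Nat.succ_mul, mul_comm] at h1
    omega
  refine ordIdeal_mono ?_ (pow_mem_ordIdeal (liftPS_mem_ordIdeal (p := p) h) j)
  have := Nat.lt_div_mul_add (a := m + j - 1) hj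
  rw [mul_comm ((m + j - 1) / j)] at this
  omega

section Target

variable {T : Type*} [CommRing T] (emb : MvPowerSeries σ k →+* T)

/-- The composite `W(k)[[Y]] → W(T)`. -/
def evalT : MvPowerSeries σ (WittVector p k) →+* WittVector p T :=
  (WittVector.map emb).comp (evalW σ p k)

theorem evalT_coeff_zero (a : MvPowerSeries σ (WittVector p k)) :
    (evalT (p := p) emb a).coeff 0 = emb (MvPowerSeries.map WittVector.constantCoeff a) := by
  rw [evalT, RingHom.comp_apply, WittVector.map_coeff, evalW_coeff_zero]

variable [CharP T p] [PerfectRing T p]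

theorem dvd_iff_coeff_zero (w : WittVector p T) : (p : WittVector p T) ∣ w ↔ w.coeff 0 = 0 := by
  rw [← Ideal.mem_span_singleton, WittVector.mem_span_p_iff_coeff_zero_eq_zero]

theorem p_cancel {v w : WittVector p T} (h : (p : WittVector p T) * v = p * w) : v = w := by
  refine sub_eq_zero.1 (WittVector.eq_zero_of_p_mul_eq_zero _ ?_)
  rw [mul_comm, mul_sub, h, sub_self]

theorem p_pow_cancel {n : ℕ} {v w : WittVector p T}
    (h : (p : WittVector p T) ^ n * v = (p : WittVector p T) ^ n * w) : v = w := by
  induction n with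
  | zero => simpa using h
  | succ n ih => exact ih (p_cancel (by rwa [pow_succ', mul_assoc, mul_assoc] at h))

/-- The value at a power of a lift is the Teichmüller representative to high `p`-adic precision. -/
theorem evalT_lift_pow (g : MvPowerSeries σ k) (j : ℕ) :
    (p : WittVector p T) ^ (j + 1) ∣ evalT emb (liftPS p g ^ p ^ j) -
      WittVector.teichmuller p (emb (g ^ p ^ j)) := by
  rw [map_pow, map_pow, map_pow]
  refine dvd_sub_pow_of_dvd_sub ?_ j
  rw [dvd_iff_coeff_zero, ← WittVector.constantCoeff_apply, map_sub]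
  simp only [WittVector.constantCoeff_apply, WittVector.teichmuller_coeff_zero, evalT_coeff_zero,
    map_liftPS, sub_self]

omit [Finite σ] in
/-- A series of Witt vectors with reduction zero is a multiple of `p`. -/
theorem exists_eq_p_mul [CharP k p] [PerfectRing k p] (a : MvPowerSeries σ (WittVector p k))
    (ha : MvPowerSeries.map WittVector.constantCoeff a = 0) :
    ∃ b, a = (p : MvPowerSeries σ (WittVector p k)) * b := by
  have h : ∀ α, ∃ c, MvPowerSeries.coeff α a = (p : WittVector p k) * c := fun α => by
    obtain ⟨c, hc⟩ := (dvd_iff_coeff_zero (MvPowerSeries.coeff α a)).2 (by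
      have := congrArg (MvPowerSeries.coeff α) ha
      rwa [MvPowerSeries.coeff_map, map_zero] at this)
    exact ⟨c, hc⟩
  choose b hb using h
  refine ⟨b, MvPowerSeries.ext fun α => ?_⟩
  rw [hb, ← map_natCast (MvPowerSeries.C (σ := σ) (R := WittVector p k))]
  exact (MvPowerSeries.coeff_C_mul α (show MvPowerSeries σ (WittVector p k) from b) _).symm

end Target

end Vale.Agent.P202.Mixed.Lattice
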