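import Vale.Agent.P202.Mixed.Lattice.Box

/-!
# P202 mixed characteristic, lattice block: the cokernel of a scalar on a box

A series `e` whose reduction has a nonzero coefficient of degree `o` cuts the box of side `M`
modulo `p ^ n` down to length `n o M ^ (d - 1)`; hence it has a small kernel on every box.
-/

noncomputable section

namespace Vale.Agent.P202.Mixed.Lattice

open MvPowerSeries Finsupp

section Ring

variable {d : ℕ} {R : Type*} [CommRing R]

/-- A series vanishing on the box lies in the ideal of the `M`-th powers of the variables. -/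
theorem mem_span_X_pow {M : ℕ} {f : MvPowerSeries (Fin d) R}
    (h : ∀ α ∈ box d M, MvPowerSeries.coeff α f = 0) :
    f ∈ Ideal.span (Set.range fun a : Fin d => (MvPowerSeries.X a : MvPowerSeries (Fin d) R) ^ M) := by
  classical
  suffices H : ∀ (s : Finset (Fin d)) (g : MvPowerSeries (Fin d) R),
      (∀ α : Fin d →₀ ℕ, (∀ a ∈ s, α a < M) → MvPowerSeries.coeff α g = 0) →
      g ∈ Ideal.span (Set.range fun a : Fin d => (MvPowerSeries.X a : MvPowerSeries (Fin d) R) ^ M) from
    H Finset.univ f fun α hα => h α (mem_box.2 fun a => hα a (Finset.mem_univ a))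
  intro s
  induction s using Finset.induction with
  | empty =>
    intro g hg
    rw [show g = 0 from MvPowerSeries.ext fun α => by rw [map_zero]; exact hg α (by simp)]
    exact zero_mem _
  | insert a s ha ih =>
    intro g hg
    let u : MvPowerSeries (Fin d) R := fun β => MvPowerSeries.coeff (β + Finsupp.single a M) g
    have hu : ∀ α : Fin d →₀ ℕ, MvPowerSeries.coeff α ((MvPowerSeries.X a) ^ M * u) =
        if M ≤ α a then MvPowerSeries.coeff α g else 0 := fun α => by
      rw [MvPowerSeries.X_pow_eq, MvPowerSeries.coeff_monomial_mul, one_mul]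
      by_cases hle : M ≤ α a
      · have hle' : Finsupp.single a M ≤ α := fun b => by
          by_cases hb : b = a
          · subst hb; simpa using hle
          · simp [hb]
        rw [if_pos hle', if_pos hle]
        show MvPowerSeries.coeff (α - Finsupp.single a M + Finsupp.single a M) g = _
        rw [tsub_add_cancel_of_le hle']
      · rw [if_neg (fun hh => hle (by simpa using hh a)), if_neg hle]
    rw [← sub_add_cancel g ((MvPowerSeries.X a) ^ M * u)]
    refine add_mem (ih _ fun α hα => ?_)
      (Ideal.mul_mem_right _ _ (Ideal.subset_span ⟨a, rfl⟩))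
    rw [map_sub, hu]
    split_ifs with hle
    · exact sub_self _
    · rw [hg α fun b hb => ?_, sub_zero]
      rcases Finset.mem_insert.1 hb with rfl | hb
      · omega
      · exact hα b hb

theorem box_sdiff_card_le {M : ℕ} (α₀ : Fin d →₀ ℕ) :
    ((box d M).filter fun α => ¬ α₀ ≤ α).card ≤ degree α₀ * M ^ (d - 1) := by
  classical
  have hsub : ((box d M).filter fun α => ¬ α₀ ≤ α) ⊆ Finset.univ.biUnion fun a : Fin d =>
      (Fintype.piFinset fun b : Fin d =>
        if b = a then Finset.range (α₀ a) else Finset.range M).map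
          Finsupp.equivFunOnFinite.symm.toEmbedding := by
    intro α hα
    obtain ⟨hbox, hne⟩ := Finset.mem_filter.1 hα
    rw [Finsupp.le_def, not_forall] at hne
    obtain ⟨a, ha⟩ := hne
    refine Finset.mem_biUnion.2 ⟨a, Finset.mem_univ _, Finset.mem_map.2
      ⟨α, Fintype.mem_piFinset.2 fun b => ?_, Finsupp.equivFunOnFinite.symm_apply_apply α⟩⟩
    split_ifs with hb
    · subst hb
      exact Finset.mem_range.2 (not_le.1 ha)
    · exact Finset.mem_range.2 (mem_box.1 hbox b)
  refine (Finset.card_le_card hsub).trans (Finset.card_biUnion_le.trans ?_)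
  rw [Finsupp.degree_eq_sum, Finset.sum_mul]
  refine Finset.sum_le_sum fun a _ => le_of_eq ?_
  rw [Finset.card_map, Fintype.card_piFinset, ← Finset.mul_prod_erase _ _ (Finset.mem_univ a)]
  rw [if_pos rfl, Finset.card_range, Finset.prod_congr rfl (fun b hb => by
    rw [if_neg (Finset.ne_of_mem_erase hb), Finset.card_range]), Finset.prod_const,
    Finset.card_erase_of_mem (Finset.mem_univ a), Finset.card_univ, Fintype.card_fin]

/-- The tie breaker of the leading exponent. -/
def tie (o : ℕ) (α : Fin d →₀ ℕ) : ℕ := ∑ a, α a * (o + 1) ^ (a : ℕ)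

theorem tie_add (o : ℕ) (α β : Fin d →₀ ℕ) : tie o (α + β) = tie o α + tie o β := by
  simp [tie, add_mul, Finset.sum_add_distrib]

theorem tie_inj {o : ℕ} {α β : Fin d →₀ ℕ} (hα : degree α = o) (hβ : degree β = o)
    (h : tie o α = tie o β) : α = β := by
  let f : Fin d → Fin (o + 1) := fun a =>
    ⟨α a, Nat.lt_succ_of_le (hα ▸ Finsupp.le_degree a α)⟩
  let g : Fin d → Fin (o + 1) := fun a =>
    ⟨β a, Nat.lt_succ_of_le (hβ ▸ Finsupp.le_degree a β)⟩
  have hfg : finFunctionFinEquiv f = finFunctionFinEquiv g := by
    ext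
    rw [finFunctionFinEquiv_apply, finFunctionFinEquiv_apply]
    exact h
  have := finFunctionFinEquiv.injective hfg
  ext a
  exact congrArg Fin.val (congrFun this a)

end Ring

variable {d : ℕ} {p : ℕ} [Fact p.Prime] {F : Type*} [Field F] [CharP F p] [PerfectRing F p]

variable (d p F) in
/-- The ideal generated by `p ^ n` and the `M`-th powers of the variables. -/
def cutIdeal (n M : ℕ) : Ideal (MvPowerSeries (Fin d) (WittVector p F)) :=
  Ideal.span {(p : MvPowerSeries (Fin d) (WittVector p F)) ^ n} ⊔
    Ideal.span (Set.range fun a : Fin d =>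
      (MvPowerSeries.X a : MvPowerSeries (Fin d) (WittVector p F)) ^ M)

theorem cutIdeal_le_boxIdeal {R K w n M : ℕ} (hR : 1 ≤ R) (hK : 1 ≤ K) (hn : w ≤ n * K)
    (hM : R * w ≤ M) : cutIdeal d p F n M ≤ boxIdeal d p F R K w := by
  refine sup_le (Ideal.span_le.2 ?_) (Ideal.span_le.2 ?_)
  · rintro _ rfl
    exact p_pow_mem_boxIdeal hK hn
  · rintro _ ⟨a, rfl⟩
    exact X_pow_mem_boxIdeal hR hK a hM

/-- **The cokernel of a scalar on a cut box.** -/
theorem length_quot_scalar (e : MvPowerSeries (Fin d) (WittVector p F)) (α : Fin d →₀ ℕ)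
    (he : ¬ (p : WittVector p F) ∣ MvPowerSeries.coeff α e) (n M : ℕ) :
    Module.length (MvPowerSeries (Fin d) (WittVector p F))
      (MvPowerSeries (Fin d) (WittVector p F) ⧸ (Ideal.span {e} ⊔ cutIdeal d p F n M)) ≤
      ((n * (degree α * M ^ (d - 1)) : ℕ) : ℕ∞) := by
  classical
  -- the leading exponent
  obtain ⟨o, ⟨α₁, hα₁o, hα₁⟩, homin⟩ : ∃ o, (∃ β : Fin d →₀ ℕ, degree β = o ∧
      ¬ (p : WittVector p F) ∣ MvPowerSeries.coeff β e) ∧ ∀ β : Fin d →₀ ℕ,
      degree β < o → (p : WittVector p F) ∣ MvPowerSeries.coeff β e := by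
    have hex : ∃ o, ∃ β : Fin d →₀ ℕ, degree β = o ∧
        ¬ (p : WittVector p F) ∣ MvPowerSeries.coeff β e := ⟨_, α, rfl, he⟩
    exact ⟨Nat.find hex, Nat.find_spec hex, fun β hβ => not_not.1 fun h =>
      Nat.find_min hex hβ ⟨β, rfl, h⟩⟩
  have hoα : o ≤ degree α := not_lt.1 fun h => he (homin α h)
  obtain ⟨α₀, hα₀, hmin⟩ := Finset.exists_min_image
    ((Finsupp.finite_of_degree_le o).toFinset.filter fun β : Fin d →₀ ℕ =>
      degree β = o ∧ ¬ (p : WittVector p F) ∣ MvPowerSeries.coeff β e) (tie o)
    ⟨α₁, by simp [hα₁o, hα₁]⟩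
  simp only [Finset.mem_filter, Set.Finite.mem_toFinset, Set.mem_ofPred_eq] at hα₀ hmin
  have hlead : ∀ β : Fin d →₀ ℕ, ¬ (p : WittVector p F) ∣ MvPowerSeries.coeff β e → β ≠ α₀ →
      o < degree β ∨ (degree β = o ∧ tie o α₀ < tie o β) := by
    intro β hβ hne
    rcases lt_trichotomy (degree β) o with h | h | h
    · exact absurd (homin β h) hβ
    · refine Or.inr ⟨h, lt_of_le_of_ne (hmin β ⟨h.le, h, hβ⟩) fun ht => hne ?_⟩
      exact (tie_inj hα₀.2.1 h ht).symm
    · exact Or.inl h
  set std := (box d M).filter fun β => ¬ α₀ ≤ β with hstd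
  set I := Ideal.span {e} ⊔ cutIdeal d p F n M with hI
  set pI := Ideal.span {(p : MvPowerSeries (Fin d) (WittVector p F))} with hpI
  let Sp : Submodule (WittVector p F) (MvPowerSeries (Fin d) (WittVector p F)) :=
    Submodule.span (WittVector p F) ((fun β => MvPowerSeries.monomial β 1) '' ↑std)
  let T : Submodule (WittVector p F) (MvPowerSeries (Fin d) (WittVector p F)) :=
    Sp ⊔ I.restrictScalars (WittVector p F) ⊔ pI.restrictScalars (WittVector p F)
  have hXI : Ideal.span (Set.range fun a : Fin d =>
      (MvPowerSeries.X a : MvPowerSeries (Fin d) (WittVector p F)) ^ M) ≤ I :=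
    le_sup_right.trans (le_sup_right (a := Ideal.span {e}))
  -- a series is congruent to its part in the box
  have htail : ∀ f : MvPowerSeries (Fin d) (WittVector p F),
      f - ∑ β ∈ box d M, MvPowerSeries.coeff β f •
        (MvPowerSeries.monomial β 1 : MvPowerSeries (Fin d) (WittVector p F)) ∈ I := fun f => by
    refine hXI (mem_span_X_pow fun β hβ => ?_)
    rw [map_sub, map_sum, Finset.sum_eq_single β (fun γ _ hγ => by
      rw [MvPowerSeries.coeff_smul, MvPowerSeries.coeff_monomial_ne hγ.symm, mul_zero])
      (fun h => absurd hβ h), MvPowerSeries.coeff_smul, MvPowerSeries.coeff_monomial_same,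
      mul_one, sub_self]
  let key : (Fin d →₀ ℕ) → ℕ ×ₗ ℕ := fun β => toLex (degree β, tie o β)
  have hmono : ∀ N, ∀ β ∈ box d M, ((box d M).filter fun γ => key β < key γ).card = N →
      (MvPowerSeries.monomial β 1 : MvPowerSeries (Fin d) (WittVector p F)) ∈ T := by
    intro N
    induction N using Nat.strong_induction_on with
    | _ N ih =>
      intro β hβ hN
      by_cases hle : α₀ ≤ β
      · set c := MvPowerSeries.coeff α₀ e with hc
        obtain ⟨u, hu⟩ : IsUnit c := WittVector.isUnit_of_coeff_zero_ne_zero _ fun h =>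
          hα₀.2.2 ((dvd_iff_coeff_zero c).2 h)
        set f := MvPowerSeries.monomial (β - α₀) ((u⁻¹ : _) : WittVector p F) * e with hf
        have hfI : f ∈ I := Ideal.mul_mem_left _ _ (le_sup_left (b := cutIdeal d p F n M)
          (Ideal.mem_span_singleton_self e))
        have hfc : ∀ γ, MvPowerSeries.coeff γ f =
            if β - α₀ ≤ γ then ((u⁻¹ : _) : WittVector p F) *
              MvPowerSeries.coeff (γ - (β - α₀)) e else 0 := fun γ => by
          rw [hf, MvPowerSeries.coeff_monomial_mul]
        have hsum : ∑ γ ∈ box d M, MvPowerSeries.coeff γ f •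
            (MvPowerSeries.monomial γ 1 : MvPowerSeries (Fin d) (WittVector p F)) ∈ T := by
          have : f - (f - ∑ γ ∈ box d M, MvPowerSeries.coeff γ f •
              (MvPowerSeries.monomial γ 1 : MvPowerSeries (Fin d) (WittVector p F))) ∈
              I.restrictScalars (WittVector p F) := sub_mem hfI (htail f)
          rw [sub_sub_cancel] at this
          exact Submodule.mem_sup_left (Submodule.mem_sup_right this)
        rw [← Finset.add_sum_erase _ _ hβ] at hsum
        have hb1 : MvPowerSeries.coeff β f = 1 := by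
          rw [hfc, if_pos tsub_le_self, tsub_tsub_cancel_of_le hle, ← hc, ← hu, Units.inv_mul]
        rw [hb1, one_smul] at hsum
        refine (Submodule.add_mem_iff_left _ (sum_mem fun γ hγ => ?_)).1 hsum
        obtain ⟨hne, hγ⟩ := Finset.mem_erase.1 hγ
        rw [hfc]
        split_ifs with hsub
        · by_cases hdiv : (p : WittVector p F) ∣ MvPowerSeries.coeff (γ - (β - α₀)) e
          · obtain ⟨q, hq⟩ := hdiv
            refine Submodule.mem_sup_right ?_
            show _ ∈ pI
            refine Ideal.mem_span_singleton.2 ?_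
            rw [hq, mul_left_comm, mul_smul, Algebra.smul_def, map_natCast]
            exact dvd_mul_right _ _
          · have hne' : γ - (β - α₀) ≠ α₀ := fun h => hne (by
              conv_lhs => rw [← tsub_add_cancel_of_le hsub, h]
              rw [add_comm, tsub_add_cancel_of_le hle])
            refine Submodule.smul_mem _ _ (ih _ ?_ γ hγ rfl)
            have hlt : key β < key γ := by
              have h1 : degree γ = degree (γ - (β - α₀)) + degree (β - α₀) := by
                rw [← map_add, tsub_add_cancel_of_le hsub]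
              have h2 : degree β = degree α₀ + degree (β - α₀) := by
                rw [← map_add, add_tsub_cancel_of_le hle]
              have h3 : tie o γ = tie o (γ - (β - α₀)) + tie o (β - α₀) := by
                rw [← tie_add, tsub_add_cancel_of_le hsub]
              have h4 : tie o β = tie o α₀ + tie o (β - α₀) := by
                rw [← tie_add, add_tsub_cancel_of_le hle]
              simp only [key, Prod.Lex.toLex_lt_toLex]
              have h5 := hα₀.2.1
              rcases hlead _ hdiv hne' with h | ⟨h, h'⟩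
              · left; omega
              · right; omega
            rw [← hN]
            refine Finset.card_lt_card ((Finset.ssubset_iff_of_subset ?_).2 ?_)
            · intro x hx
              obtain ⟨hx1, hx2⟩ := Finset.mem_filter.1 hx
              exact Finset.mem_filter.2 ⟨hx1, hlt.trans hx2⟩
            · exact ⟨γ, Finset.mem_filter.2 ⟨hγ, hlt⟩,
                fun h => lt_irrefl _ (Finset.mem_filter.1 h).2⟩
        · rw [zero_smul]
          exact zero_mem _
      · exact Submodule.mem_sup_left (Submodule.mem_sup_left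
          (Submodule.subset_span ⟨β, Finset.mem_filter.2 ⟨hβ, hle⟩, rfl⟩))
  have hT : ∀ f : MvPowerSeries (Fin d) (WittVector p F), f ∈ T := fun f => by
    have h1 : f - ∑ β ∈ box d M, MvPowerSeries.coeff β f •
        (MvPowerSeries.monomial β 1 : MvPowerSeries (Fin d) (WittVector p F)) ∈ T :=
      Submodule.mem_sup_left (Submodule.mem_sup_right (htail f))
    refine (Submodule.sub_mem_iff_left _ (sum_mem fun β hβ => ?_)).1 h1
    exact Submodule.smul_mem _ _ (hmono _ β hβ rfl)
  -- remove the prime
  have hall : ∀ f : MvPowerSeries (Fin d) (WittVector p F),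
      f ∈ Sp ⊔ I.restrictScalars (WittVector p F) := by
    have hrec : ∀ (j : ℕ) (f : MvPowerSeries (Fin d) (WittVector p F)),
        ∃ g, f - (p : MvPowerSeries (Fin d) (WittVector p F)) ^ j * g ∈
          Sp ⊔ I.restrictScalars (WittVector p F) := by
      intro j
      induction j with
      | zero => exact fun f => ⟨f, by rw [pow_zero, one_mul, sub_self]; exact zero_mem _⟩
      | succ j ih =>
        intro f
        obtain ⟨g, hg⟩ := ih f
        obtain ⟨a, ha, b, hb, hab⟩ := Submodule.mem_sup.1 (hT g)
        obtain ⟨q, hq⟩ := Ideal.mem_span_singleton.1 (show b ∈ pI from hb)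
        refine ⟨q, ?_⟩
        have h2 : (p : MvPowerSeries (Fin d) (WittVector p F)) ^ j * a ∈
            Sp ⊔ I.restrictScalars (WittVector p F) := by
          rw [← map_natCast (algebraMap (WittVector p F) (MvPowerSeries (Fin d) (WittVector p F))),
            ← map_pow, ← Algebra.smul_def]
          exact Submodule.smul_mem _ _ ha
        convert add_mem hg h2 using 1
        rw [← hab, hq]
        ring
    intro f
    obtain ⟨g, hg⟩ := hrec n f
    have h2 : (p : MvPowerSeries (Fin d) (WittVector p F)) ^ n * g ∈
        I.restrictScalars (WittVector p F) :=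
      Ideal.mul_mem_right _ _ (le_sup_right (a := Ideal.span {e})
        (Ideal.mem_sup_left (Ideal.mem_span_singleton_self _)))
    have := add_mem hg (Submodule.mem_sup_right (S := Sp) h2)
    rwa [sub_add_cancel] at this
  let L : (↥std → WittVector p F) →ₗ[WittVector p F]
      MvPowerSeries (Fin d) (WittVector p F) ⧸ I.restrictScalars (WittVector p F) :=
    (Submodule.mkQ _).comp (Fintype.linearCombination (WittVector p F)
      fun β : ↥std => MvPowerSeries.monomial β.1 1)
  have hL : Function.Surjective L := fun q => by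
    obtain ⟨f, rfl⟩ := Submodule.mkQ_surjective _ q
    obtain ⟨a, ha, b, hb, rfl⟩ := Submodule.mem_sup.1 (hall f)
    have : a ∈ Submodule.span (WittVector p F) (Set.range fun β : ↥std =>
        (MvPowerSeries.monomial β.1 1 : MvPowerSeries (Fin d) (WittVector p F))) := by
      simp only [Sp, Set.image_eq_range] at ha
      exact ha
    rw [← Fintype.range_linearCombination] at this
    obtain ⟨c, rfl⟩ := this
    refine ⟨c, ?_⟩
    rw [map_add, show (Submodule.mkQ _) b = 0 from (Submodule.Quotient.mk_eq_zero _).2 hb, add_zero]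
    rfl
  let P : Submodule (WittVector p F) (↥std → WittVector p F) :=
    Submodule.pi Set.univ fun _ => Ideal.span {(p : WittVector p F) ^ n}
  have hP : P ≤ LinearMap.ker L := fun c hc => by
    refine (Submodule.Quotient.mk_eq_zero _).2 ?_
    rw [Fintype.linearCombination_apply]
    refine sum_mem fun β _ => ?_
    obtain ⟨q, hq⟩ := Ideal.mem_span_singleton.1 (hc β (Set.mem_univ _))
    rw [hq, mul_smul, Algebra.smul_def, map_pow, map_natCast]
    exact Ideal.mul_mem_right _ _ (le_sup_right (a := Ideal.span {e})
      (Ideal.mem_sup_left (Ideal.mem_span_singleton_self _)))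
  rw [length_series_eq, ← (Submodule.Quotient.restrictScalarsEquiv (WittVector p F) I).length_eq]
  refine (Module.length_le_of_surjective (P.liftQ L hP) (fun q => ?_)).trans ?_
  · obtain ⟨c, rfl⟩ := hL q
    exact ⟨Submodule.Quotient.mk c, rfl⟩
  rw [(Submodule.quotientPi _).length_eq, Module.length_pi_of_fintype]
  simp only [length_wittVector_quot, Finset.sum_const, Finset.card_univ, Fintype.card_coe,
    nsmul_eq_mul, Nat.cast_mul]
  rw [mul_comm]
  refine mul_le_mul le_rfl ?_ zero_le zero_le
  rw [← Nat.cast_mul]
  refine Nat.cast_le.2 ((box_sdiff_card_le α₀).trans ?_)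
  rw [hα₀.2.1]
  exact Nat.mul_le_mul_right _ hoα

/-- A scalar has equal kernel and cokernel on a module of finite length. -/
theorem length_ker_smul_eq {A : Type*} [CommRing A] {X : Type*} [AddCommGroup X] [Module A X]
    (hX : Module.length A X ≠ ⊤) (e : A) :
    Module.length A (LinearMap.ker (LinearMap.lsmul A X e)) =
      Module.length A (X ⧸ LinearMap.range (LinearMap.lsmul A X e)) := by
  set f := LinearMap.lsmul A X e
  have h1 := Module.length_eq_add_of_exact (LinearMap.ker f).subtype (LinearMap.ker f).mkQ
    (Submodule.injective_subtype _) (Submodule.mkQ_surjective _) (LinearMap.exact_subtype_mkQ _)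
  have h2 := Module.length_eq_add_of_exact (LinearMap.range f).subtype (LinearMap.range f).mkQ
    (Submodule.injective_subtype _) (Submodule.mkQ_surjective _) (LinearMap.exact_subtype_mkQ _)
  rw [f.quotKerEquivRange.length_eq] at h1
  have hne : Module.length A (LinearMap.range f) ≠ ⊤ :=
    ne_top_of_le_ne_top hX (Module.length_le_of_injective _ (Submodule.injective_subtype _))
  rw [h1, add_comm] at h2
  exact (ENat.addLECancellable_of_ne_top hne).inj.1 h2

/-- The kernel of a scalar on a power of a box quotient is small. -/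
theorem length_box_ker_smul {μ : Type*} [Fintype μ] {R K w n : ℕ} (hR : 1 ≤ R) (hK : 1 ≤ K)
    (hn : w ≤ n * K) (e : MvPowerSeries (Fin d) (WittVector p F)) (α : Fin d →₀ ℕ)
    (he : ¬ (p : WittVector p F) ∣ MvPowerSeries.coeff α e) :
    Module.length (MvPowerSeries (Fin d) (WittVector p F))
      (LinearMap.ker (LinearMap.lsmul (MvPowerSeries (Fin d) (WittVector p F))
        (μ → MvPowerSeries (Fin d) (WittVector p F) ⧸ boxIdeal d p F R K w) e)) ≤
      ((Fintype.card μ * (n * (degree α * (R * w) ^ (d - 1))) : ℕ) : ℕ∞) := by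
  classical
  have hfin : Module.length (MvPowerSeries (Fin d) (WittVector p F))
      (μ → MvPowerSeries (Fin d) (WittVector p F) ⧸ boxIdeal d p F R K w) ≠ ⊤ := by
    rw [Module.length_pi_of_fintype]
    simp only [length_quot_boxIdeal hR hK]
    rw [← Nat.cast_sum]
    exact ENat.natCast_ne_top _
  rw [length_ker_smul_eq hfin]
  set I := Ideal.span {e} ⊔ cutIdeal d p F n (R * w) with hI
  let g : (μ → MvPowerSeries (Fin d) (WittVector p F)) →ₗ[MvPowerSeries (Fin d) (WittVector p F)]
      (μ → MvPowerSeries (Fin d) (WittVector p F) ⧸ boxIdeal d p F R K w) ⧸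
        LinearMap.range (LinearMap.lsmul (MvPowerSeries (Fin d) (WittVector p F))
          (μ → MvPowerSeries (Fin d) (WittVector p F) ⧸ boxIdeal d p F R K w) e) :=
    (Submodule.mkQ _).comp (LinearMap.pi fun i => (Submodule.mkQ _).comp (LinearMap.proj i))
  have hgs : Function.Surjective g := fun q => by
    obtain ⟨x, rfl⟩ := Submodule.mkQ_surjective _ q
    choose c hc using fun i => Submodule.mkQ_surjective _ (x i)
    exact ⟨c, congrArg _ (funext hc)⟩
  have hker : Submodule.pi Set.univ (fun _ : μ => I) ≤ LinearMap.ker g := fun x hx => by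
    choose a ha b hb hab using fun i => Submodule.mem_sup.1 (hx i (Set.mem_univ _))
    choose q hq using fun i => Ideal.mem_span_singleton.1 (ha i)
    refine (Submodule.Quotient.mk_eq_zero _).2 ⟨fun i => Submodule.Quotient.mk (q i), funext fun i => ?_⟩
    show e • (Submodule.Quotient.mk (q i) : MvPowerSeries (Fin d) (WittVector p F) ⧸
      boxIdeal d p F R K w) = Submodule.Quotient.mk (x i)
    rw [← Submodule.Quotient.mk_smul, smul_eq_mul, Submodule.Quotient.eq, ← hab i, hq i,
      sub_add_cancel_left]
    exact neg_mem (cutIdeal_le_boxIdeal hR hK hn le_rfl (hb i))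
  refine (Module.length_le_of_surjective ((Submodule.pi Set.univ fun _ : μ => I).liftQ g hker)
    (fun q => ?_)).trans ?_
  · obtain ⟨c, rfl⟩ := hgs q
    exact ⟨Submodule.Quotient.mk c, rfl⟩
  rw [(Submodule.quotientPi fun _ : μ => (I : Submodule (MvPowerSeries (Fin d) (WittVector p F))
    (MvPowerSeries (Fin d) (WittVector p F)))).length_eq, Module.length_pi_of_fintype]
  refine (Finset.sum_le_card_nsmul _ _ _ fun i _ => length_quot_scalar e α he n (R * w)).trans ?_
  rw [Finset.card_univ, nsmul_eq_mul, ← Nat.cast_mul]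

end Vale.Agent.P202.Mixed.Lattice
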