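import Vale.Agent.P202.Mixed.Lattice.Lat

/-!
# P202 mixed characteristic, lattice block: the base ring of a model

`p` lies in the maximal ideal of a model and lengths over it are lengths over the series.
-/

noncomputable section

namespace Vale.Agent.P202.Mixed.Lattice

open IsLocalRing

universe u

variable {p : ℕ} [Fact p.Prime] {L : Type u} [_root_.Field L] [CharP L p] [PerfectRing L p] {d D : ℕ}
  {B : Type u} [CommRing B] [IsLocalRing B] [Algebra (PS p L d) B]
  (Mo : Model p B (C := WittVector p L) (d := d) D)

include Mo

theorem comap_maximalIdeal :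
    (maximalIdeal B).comap (algebraMap (PS p L d) B) = maximalIdeal (PS p L d) := by
  have := Mo.finite
  have : ((maximalIdeal B).comap (algebraMap (PS p L d) B)).IsMaximal :=
    Ideal.isMaximal_comap_of_isIntegral_of_isMaximal _
  exact IsLocalRing.eq_maximalIdeal this

theorem p_mem_maximalIdeal : (p : B) ∈ maximalIdeal B := by
  have h : (p : PS p L d) ∈ maximalIdeal (PS p L d) := by
    rw [IsLocalRing.mem_maximalIdeal, mem_nonunits_iff, MvPowerSeries.isUnit_iff_constantCoeff,
      map_natCast]
    exact (WittVector.irreducible p).not_isUnit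
  rw [← comap_maximalIdeal Mo, Ideal.mem_comap, map_natCast] at h
  exact h

theorem isLocalHom_algebraMap : IsLocalHom (algebraMap (PS p L d) B) :=
  ⟨fun a ha => by
    by_contra hna
    have h : a ∈ maximalIdeal (PS p L d) := (IsLocalRing.mem_maximalIdeal _).2 hna
    rw [← comap_maximalIdeal Mo] at h
    exact (IsLocalRing.mem_maximalIdeal _).1 h ha⟩

/-- Lengths over a model are lengths over the series. -/
theorem model_length_eq (V : Type u) [AddCommGroup V] [Module B V] [Module (PS p L d) V]
    [IsScalarTower (PS p L d) B V] : Module.length (PS p L d) V = Module.length B V := by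
  have := isLocalHom_algebraMap Mo
  have hbij : Function.Bijective
      (algebraMap (ResidueField (PS p L d)) (ResidueField B)) := by
    refine ⟨RingHom.injective _, fun q => ?_⟩
    obtain ⟨a, rfl⟩ := residue_surjective q
    obtain ⟨c, hc⟩ := Mo.residue_surj a
    refine ⟨residue _ (MvPowerSeries.C c), ?_⟩
    rw [ResidueField.algebraMap_residue]
    exact ((Ideal.Quotient.mk_eq_mk_iff_sub_mem _ _).2 hc).symm
  have h1 : Module.length (ResidueField (PS p L d)) (ResidueField B) = 1 := by
    rw [← (LinearEquiv.ofBijective (Algebra.linearMap _ _) hbij).length_eq]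
    exact Module.length_eq_one _ _
  rw [IsLocalRing.length_restrictScalars (PS p L d) B V, h1, mul_one]

end Vale.Agent.P202.Mixed.Lattice
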