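import Vale.Agent.P202.Mixed.Lattice.Eval

/-!
# P202 mixed characteristic, lattice block: weight boxes

In `W(k)[[Y]]` the prime has weight `K` and a monomial `Y ^ α` the weight `∑ α_a / R`.  `boxIdeal w`
consists of the series all whose terms have weight at least `w`; its quotient has length
`∑ max 0 ⌈(w - ∑ α_a / R) / K⌉`.
-/

noncomputable section

namespace Vale.Agent.P202.Mixed.Lattice

open MvPowerSeries Finsupp IsLocalRing

variable {d : ℕ}

/-- The weight of a monomial: the degree in the powers `Y_a ^ R`. -/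
def zwt (R : ℕ) (α : Fin d →₀ ℕ) : ℕ := ∑ a, α a / R

/-- The power of `p` needed to lift a monomial to weight `w`. -/
def need (R K w : ℕ) (α : Fin d →₀ ℕ) : ℕ := (w - zwt R α + K - 1) / K

theorem zwt_add_le (R : ℕ) (α β : Fin d →₀ ℕ) : zwt R α + zwt R β ≤ zwt R (α + β) := by
  rw [zwt, zwt, zwt, ← Finset.sum_add_distrib]
  exact Finset.sum_le_sum fun a _ => Nat.add_div_le_add_div _ _ _

theorem need_le_iff {R K w j : ℕ} (hK : 1 ≤ K) (α : Fin d →₀ ℕ) :
    need R K w α ≤ j ↔ w ≤ j * K + zwt R α := by
  rw [need, ← Nat.lt_succ_iff, Nat.div_lt_iff_lt_mul (by omega), Nat.succ_mul]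
  omega

theorem le_zwt_of_le_degree {R w : ℕ} (hR : 1 ≤ R) {α : Fin d →₀ ℕ}
    (h : R * w + d * (R - 1) ≤ degree α) : w ≤ zwt R α := by
  have h1 : degree α ≤ R * zwt R α + d * (R - 1) := by
    rw [Finsupp.degree_eq_sum, zwt, Finset.mul_sum]
    calc ∑ a, α a ≤ ∑ a, (R * (α a / R) + (R - 1)) := Finset.sum_le_sum fun a _ => by
          have := Nat.div_add_mod (α a) R
          have := Nat.mod_lt (α a) (show 0 < R by omega)
          omega
      _ = ∑ a, R * (α a / R) + d * (R - 1) := by
          rw [Finset.sum_add_distrib, Finset.sum_const, Finset.card_univ, Fintype.card_fin,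
            smul_eq_mul]
  have h2 : R * w ≤ R * zwt R α := by omega
  exact Nat.le_of_mul_le_mul_left h2 hR

variable {p : ℕ} [Fact p.Prime] {k : Type*} [CommRing k]

variable (p k d) in
/-- Series all whose terms have weight at least `w`. -/
def boxIdeal (R K w : ℕ) : Ideal (MvPowerSeries (Fin d) (WittVector p k)) where
  carrier := {a | ∀ α, (p : WittVector p k) ^ need R K w α ∣ MvPowerSeries.coeff α a}
  add_mem' {a b} ha hb α := by rw [map_add]; exact dvd_add (ha α) (hb α)
  zero_mem' α := by rw [map_zero]; exact dvd_zero _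
  smul_mem' c a ha α := by
    classical
    rw [smul_eq_mul, MvPowerSeries.coeff_mul]
    refine Finset.dvd_sum fun x hx => Dvd.dvd.mul_left ((pow_dvd_pow _ ?_).trans (ha x.2)) _
    rw [Finset.HasAntidiagonal.mem_antidiagonal] at hx
    have := zwt_add_le R x.1 x.2
    rw [hx] at this
    refine Nat.div_le_div_right ?_
    omega

theorem mem_boxIdeal {R K w : ℕ} {a : MvPowerSeries (Fin d) (WittVector p k)} :
    a ∈ boxIdeal d p k R K w ↔ ∀ α, (p : WittVector p k) ^ need R K w α ∣ MvPowerSeries.coeff α a :=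
  Iff.rfl

theorem boxIdeal_anti {R K w w' : ℕ} (h : w ≤ w') :
    boxIdeal d p k R K w' ≤ boxIdeal d p k R K w := fun a ha α =>
  (pow_dvd_pow _ (Nat.div_le_div_right (by omega))).trans (ha α)

theorem boxIdeal_zero {R K : ℕ} (hK : 1 ≤ K) : boxIdeal d p k R K 0 = ⊤ := by
  refine eq_top_iff.2 fun a _ α => ?_
  have : need R K 0 α = 0 := Nat.le_zero.1 ((need_le_iff hK α).2 (Nat.zero_le _))
  rw [this, pow_zero]
  exact one_dvd _

theorem mul_mem_boxIdeal {R K u v : ℕ} (hK : 1 ≤ K)
    {a b : MvPowerSeries (Fin d) (WittVector p k)} (ha : a ∈ boxIdeal d p k R K u)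
    (hb : b ∈ boxIdeal d p k R K v) : a * b ∈ boxIdeal d p k R K (u + v) := fun α => by
  classical
  rw [MvPowerSeries.coeff_mul]
  refine Finset.dvd_sum fun x hx => ?_
  rw [Finset.HasAntidiagonal.mem_antidiagonal] at hx
  refine dvd_trans ?_ (mul_dvd_mul (ha x.1) (hb x.2))
  rw [← pow_add]
  refine pow_dvd_pow _ ((need_le_iff hK α).2 ?_)
  have h1 := (need_le_iff hK x.1).1 (le_refl (need R K u x.1))
  have h2 := (need_le_iff hK x.2).1 (le_refl (need R K v x.2))
  have h3 := zwt_add_le R x.1 x.2
  rw [hx] at h3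
  rw [Nat.add_mul]
  omega

theorem ordIdeal_le_boxIdeal {R K w : ℕ} (hR : 1 ≤ R) (hK : 1 ≤ K) :
    ordIdeal (Fin d) (WittVector p k) (R * w + d * (R - 1)) ≤ boxIdeal d p k R K w := fun a ha α => by
  by_cases h : degree α < R * w + d * (R - 1)
  · rw [ha α h]
    exact dvd_zero _
  · have h0 : need R K w α = 0 := Nat.le_zero.1 ((need_le_iff hK α).2 (by
      have := le_zwt_of_le_degree hR (not_lt.1 h)
      omega))
    rw [h0, pow_zero]
    exact one_dvd _

theorem coeff_natCast_pow_mul (j : ℕ) (a : MvPowerSeries (Fin d) (WittVector p k))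
    (α : Fin d →₀ ℕ) :
    MvPowerSeries.coeff α ((p : MvPowerSeries (Fin d) (WittVector p k)) ^ j * a) =
      (p : WittVector p k) ^ j * MvPowerSeries.coeff α a := by
  rw [← map_natCast (MvPowerSeries.C (σ := Fin d) (R := WittVector p k)), ← map_pow,
    MvPowerSeries.coeff_C_mul]

theorem p_pow_mem_boxIdeal {R K w j : ℕ} (hK : 1 ≤ K) (h : w ≤ j * K) :
    (p : MvPowerSeries (Fin d) (WittVector p k)) ^ j ∈ boxIdeal d p k R K w := fun α => by
  rw [← mul_one ((p : MvPowerSeries (Fin d) (WittVector p k)) ^ j), coeff_natCast_pow_mul]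
  exact Dvd.dvd.mul_right (pow_dvd_pow _ ((need_le_iff hK α).2 (by omega))) _

theorem X_pow_mem_boxIdeal {R K w : ℕ} (hR : 1 ≤ R) (hK : 1 ≤ K) (a : Fin d) {M : ℕ}
    (h : R * w ≤ M) :
    (MvPowerSeries.X a : MvPowerSeries (Fin d) (WittVector p k)) ^ M ∈ boxIdeal d p k R K w :=
  fun α => by
  classical
  rw [MvPowerSeries.coeff_X_pow]
  split_ifs with hα
  · refine Dvd.dvd.trans (dvd_of_eq ?_) (one_dvd _)
    have h0 : need R K w α = 0 := by
      refine Nat.le_zero.1 ((need_le_iff hK α).2 ?_)
      subst hα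
      have h1 : M / R ≤ zwt R (Finsupp.single a M) :=
        le_trans (by simp) (Finset.single_le_sum (f := fun b => Finsupp.single a M b / R)
          (fun b _ => Nat.zero_le _) (Finset.mem_univ a))
      have h2 : w ≤ M / R := (Nat.le_div_iff_mul_le hR).2 (by rwa [mul_comm])
      omega
    rw [h0, pow_zero]
  · exact dvd_zero _

section Field

variable [CharP k p] [PerfectRing k p]

/-- Dividing by `p` lowers the weight by `K`. -/
theorem mem_boxIdeal_of_p_mul [IsDomain k] {R K w : ℕ} (hK : 1 ≤ K)
    {a : MvPowerSeries (Fin d) (WittVector p k)}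
    (h : (p : MvPowerSeries (Fin d) (WittVector p k)) * a ∈ boxIdeal d p k R K (w + K)) :
    a ∈ boxIdeal d p k R K w := fun α => by
  have h1 := h α
  rw [← pow_one (p : MvPowerSeries (Fin d) (WittVector p k)), coeff_natCast_pow_mul, pow_one] at h1
  have h2 : need R K w α ≤ need R K (w + K) α := Nat.div_le_div_right (by omega)
  by_cases h0 : need R K w α = 0
  · rw [h0, pow_zero]
    exact one_dvd _
  · have h3 : need R K (w + K) α = need R K w α + 1 := by
      have hlt : zwt R α < w := by
        by_contra hle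
        exact h0 (Nat.le_zero.1 ((need_le_iff hK α).2 (by omega)))
      rw [need, need, show w + K - zwt R α + K - 1 = (w - zwt R α + K - 1) + K by omega,
        Nat.add_div_right _ (by omega)]
    rw [h3, pow_succ'] at h1
    exact (mul_dvd_mul_iff_left (WittVector.p_nonzero p k)).1 h1

theorem matrix_mulVec_mem {μ : Type*} [Fintype μ] {R K u v : ℕ} (hK : 1 ≤ K)
    {M : Matrix μ μ (MvPowerSeries (Fin d) (WittVector p k))}
    (hM : ∀ i j, M i j ∈ boxIdeal d p k R K u)
    {x : μ → MvPowerSeries (Fin d) (WittVector p k)} (hx : ∀ j, x j ∈ boxIdeal d p k R K v) (i : μ) :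
    M.mulVec x i ∈ boxIdeal d p k R K (u + v) :=
  Ideal.sum_mem _ fun j _ => mul_mem_boxIdeal hK (hM i j) (hx j)

/-- If `(e p - M) x` has weight `w + K` and `M` has weight above `K`, then a power of `e` brings
`x` to weight `w`. -/
theorem mem_boxIdeal_of_step [IsDomain k] {μ : Type*} [Fintype μ] {R K w : ℕ} (hK : 1 ≤ K)
    (e : MvPowerSeries (Fin d) (WittVector p k))
    {M : Matrix μ μ (MvPowerSeries (Fin d) (WittVector p k))}
    (hM : ∀ i j, M i j ∈ boxIdeal d p k R K (K + 1))
    {x : μ → MvPowerSeries (Fin d) (WittVector p k)}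
    (hx : ∀ i, e * (p : MvPowerSeries (Fin d) (WittVector p k)) * x i - M.mulVec x i ∈
      boxIdeal d p k R K (w + K)) :
    ∀ u, u ≤ w → ∀ i, e ^ u * x i ∈ boxIdeal d p k R K u := by
  intro u
  induction u with
  | zero => intro _ i; rw [boxIdeal_zero hK]; trivial
  | succ u ih =>
    intro hu i
    refine mem_boxIdeal_of_p_mul hK ?_
    have h1 := matrix_mulVec_mem hK hM (ih (by omega)) i
    have h2 : (M.mulVec fun j => e ^ u * x j) i = e ^ u * M.mulVec x i := by
      simp [Matrix.mulVec, dotProduct, Finset.mul_sum, mul_left_comm]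
    rw [h2] at h1
    have h3 := Ideal.mul_mem_left _ (e ^ u) (hx i)
    have h4 := add_mem (boxIdeal_anti (show u + 1 + K ≤ K + 1 + u by omega) h1)
      (boxIdeal_anti (show u + 1 + K ≤ w + K by omega) h3)
    refine (Ideal.add_mem_iff_left _ (zero_mem _)).1 ?_
    convert h4 using 1
    ring

end Field

section Lengths

variable (p k) in
/-- The exponents in the box of side `M`. -/
def box (d M : ℕ) : Finset (Fin d →₀ ℕ) :=
  (Fintype.piFinset fun _ : Fin d => Finset.range M).map
    Finsupp.equivFunOnFinite.symm.toEmbedding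

theorem mem_box {M : ℕ} {α : Fin d →₀ ℕ} : α ∈ box d M ↔ ∀ a, α a < M := by
  simp only [box, Finset.mem_map, Fintype.mem_piFinset, Finset.mem_range, Equiv.coe_toEmbedding]
  exact ⟨by rintro ⟨f, hf, rfl⟩ a; exact hf a,
    fun h => ⟨α, h, Finsupp.equivFunOnFinite.symm_apply_apply α⟩⟩

theorem need_eq_zero_of_not_mem_box {R K w : ℕ} (hR : 1 ≤ R) (hK : 1 ≤ K) {α : Fin d →₀ ℕ}
    (h : α ∉ box d (R * w)) : need R K w α = 0 := by
  rw [mem_box, not_forall] at h
  obtain ⟨a, ha⟩ := h
  refine Nat.le_zero.1 ((need_le_iff hK α).2 ?_)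
  have h1 : α a / R ≤ zwt R α := Finset.single_le_sum (f := fun b => α b / R)
    (fun b _ => Nat.zero_le _) (Finset.mem_univ a)
  have h2 : w ≤ α a / R := (Nat.le_div_iff_mul_le hR).2 (by rw [mul_comm]; omega)
  omega

variable {F : Type*} [Field F] [CharP F p] [PerfectRing F p]

theorem length_wittVector_quot (j : ℕ) :
    Module.length (WittVector p F) (WittVector p F ⧸ Ideal.span {(p : WittVector p F) ^ j}) = j := by
  rw [← Ideal.span_singleton_pow, ← (WittVector.irreducible (p := p) (k := F)).maximalIdeal_eq]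
  exact IsDiscreteValuationRing.length_quotient_pow_maximalIdeal _ j

theorem isLocalHom_C : IsLocalHom (algebraMap (WittVector p F) (MvPowerSeries (Fin d) (WittVector p F))) :=
  ⟨fun a ha => by
    rw [MvPowerSeries.algebraMap_apply, Algebra.algebraMap_self_apply] at ha
    simpa using ha.map MvPowerSeries.constantCoeff⟩

/-- Lengths over the series ring are lengths over the coefficients. -/
theorem length_series_eq {M : Type*} [AddCommGroup M]
    [Module (MvPowerSeries (Fin d) (WittVector p F)) M] [Module (WittVector p F) M]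
    [IsScalarTower (WittVector p F) (MvPowerSeries (Fin d) (WittVector p F)) M] :
    Module.length (MvPowerSeries (Fin d) (WittVector p F)) M = Module.length (WittVector p F) M := by
  have := isLocalHom_C (p := p) (F := F) (d := d)
  have hbij : Function.Bijective
      (algebraMap (ResidueField (WittVector p F))
        (ResidueField (MvPowerSeries (Fin d) (WittVector p F)))) := by
    refine ⟨RingHom.injective _, fun q => ?_⟩
    obtain ⟨a, rfl⟩ := residue_surjective q
    refine ⟨residue _ (MvPowerSeries.constantCoeff a), ?_⟩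
    rw [ResidueField.algebraMap_residue, ← sub_eq_zero, ← map_sub, residue_eq_zero_iff,
      IsLocalRing.mem_maximalIdeal, mem_nonunits_iff, MvPowerSeries.isUnit_iff_constantCoeff]
    simp [MvPowerSeries.algebraMap_apply]
  have h1 : Module.length (ResidueField (WittVector p F))
      (ResidueField (MvPowerSeries (Fin d) (WittVector p F))) = 1 := by
    rw [← (LinearEquiv.ofBijective (Algebra.linearMap _ _) hbij).length_eq]
    exact Module.length_eq_one _ _
  rw [IsLocalRing.length_restrictScalars (WittVector p F)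
    (MvPowerSeries (Fin d) (WittVector p F)) M, h1, mul_one]

/-- **The length of a box.** -/
theorem length_quot_boxIdeal {R K w : ℕ} (hR : 1 ≤ R) (hK : 1 ≤ K) :
    Module.length (MvPowerSeries (Fin d) (WittVector p F))
      (MvPowerSeries (Fin d) (WittVector p F) ⧸ boxIdeal d p F R K w) =
      ((∑ α ∈ box d (R * w), need R K w α : ℕ) : ℕ∞) := by
  classical
  let L : MvPowerSeries (Fin d) (WittVector p F) →ₗ[WittVector p F]
      ((α : ↥(box d (R * w))) → WittVector p F ⧸ Ideal.span {(p : WittVector p F) ^ need R K w α.1}) :=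
    LinearMap.pi fun α => (Submodule.mkQ _).comp (MvPowerSeries.coeff α.1)
  have hL : Function.Surjective L := fun f => by
    choose c hc using fun α => Submodule.mkQ_surjective _ (f α)
    refine ⟨fun α => if h : α ∈ box d (R * w) then c ⟨α, h⟩ else 0, funext fun α => ?_⟩
    show Submodule.mkQ _ (if h : α.1 ∈ box d (R * w) then c ⟨α.1, h⟩ else 0) = f α
    rw [dif_pos α.2, hc]
  have hker : (boxIdeal d p F R K w).restrictScalars (WittVector p F) = LinearMap.ker L := by
    ext a
    simp only [Submodule.restrictScalars_mem, mem_boxIdeal, LinearMap.mem_ker, funext_iff, L,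
      LinearMap.pi_apply, LinearMap.comp_apply, Submodule.mkQ_apply, Pi.zero_apply,
      Submodule.Quotient.mk_eq_zero, Ideal.mem_span_singleton, Subtype.forall]
    refine ⟨fun h α _ => h α, fun h α => ?_⟩
    by_cases hα : α ∈ box d (R * w)
    · exact h α hα
    · rw [need_eq_zero_of_not_mem_box hR hK hα, pow_zero]
      exact one_dvd _
  rw [length_series_eq, ← (Submodule.Quotient.restrictScalarsEquiv (WittVector p F)
      (boxIdeal d p F R K w)).length_eq, (Submodule.quotEquivOfEq _ _ hker).length_eq,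
    (L.quotKerEquivOfSurjective hL).length_eq, Module.length_pi_of_fintype]
  simp only [length_wittVector_quot]
  rw [Nat.cast_sum, ← Finset.sum_coe_sort (box d (R * w))]

end Lengths

end Vale.Agent.P202.Mixed.Lattice
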