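import Vale.Agent.P202.RingSide.Hilbert
import Vale.Agent.P202.Mixed.Lattice.Scalar

/-!
# P202 mixed characteristic, lattice block: colons by products of untilt matrices

For matrices `Δ_j = e p - M_j` with `M_j` of weight above `K`, a vector sent by a product of `l` of
them to weight `w + l K` has weight `w` after multiplication by a power of `e`.
-/

noncomputable section

namespace Vale.Agent.P202.Mixed.Lattice

open MvPowerSeries Finsupp Matrix

variable {d : ℕ} {p : ℕ} [Fact p.Prime] {F : Type*} [Field F] [CharP F p] [PerfectRing F p]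
  {μ : Type*} [Fintype μ] [DecidableEq μ]

variable (e : MvPowerSeries (Fin d) (WittVector p F))

/-- The matrix `e p - M`. -/
def untiltMat (M : Matrix μ μ (MvPowerSeries (Fin d) (WittVector p F))) :
    Matrix μ μ (MvPowerSeries (Fin d) (WittVector p F)) :=
  (e * (p : MvPowerSeries (Fin d) (WittVector p F))) •
    (1 : Matrix μ μ (MvPowerSeries (Fin d) (WittVector p F))) - M

omit [CharP F p] [PerfectRing F p] in
theorem untiltMat_mulVec (M : Matrix μ μ (MvPowerSeries (Fin d) (WittVector p F)))
    (x : μ → MvPowerSeries (Fin d) (WittVector p F)) (i : μ) :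
    (untiltMat e M *ᵥ x) i =
      e * (p : MvPowerSeries (Fin d) (WittVector p F)) * x i - (M *ᵥ x) i := by
  simp [untiltMat, Matrix.sub_mulVec, Matrix.smul_mulVec]

/-- An untilt matrix raises the weight by `K`. -/
theorem untiltMat_mulVec_mem {R K w : ℕ} (hK : 1 ≤ K)
    {M : Matrix μ μ (MvPowerSeries (Fin d) (WittVector p F))}
    (hM : ∀ i j, M i j ∈ boxIdeal d p F R K (K + 1))
    {x : μ → MvPowerSeries (Fin d) (WittVector p F)}
    (hx : ∀ i, x i ∈ boxIdeal d p F R K w) (i : μ) :
    (untiltMat e M *ᵥ x) i ∈ boxIdeal d p F R K (w + K) := by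
  rw [untiltMat_mulVec]
  refine sub_mem ?_ (boxIdeal_anti (by omega) (matrix_mulVec_mem hK hM hx i))
  rw [mul_assoc]
  refine Ideal.mul_mem_left _ _ ?_
  rw [add_comm]
  refine mul_mem_boxIdeal hK ?_ (hx i)
  simpa using p_pow_mem_boxIdeal (d := d) (p := p) (k := F) (R := R) (K := K) (w := K) (j := 1) hK
    (by omega)

/-- A product of untilt matrices raises the weight by `K` times its length. -/
theorem untiltProd_mulVec_mem {R K : ℕ} (hK : 1 ≤ K) :
    ∀ (L : List (Matrix μ μ (MvPowerSeries (Fin d) (WittVector p F)))),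
      (∀ M ∈ L, ∀ i j, M i j ∈ boxIdeal d p F R K (K + 1)) →
      ∀ (w : ℕ) (x : μ → MvPowerSeries (Fin d) (WittVector p F)),
        (∀ i, x i ∈ boxIdeal d p F R K w) →
        ∀ i, ((L.map (untiltMat e)).prod *ᵥ x) i ∈ boxIdeal d p F R K (w + L.length * K) := by
  intro L
  induction L with
  | nil => exact fun _ w x hx i => by simpa using hx i
  | cons M L ih =>
    intro hL w x hx i
    rw [List.map_cons, List.prod_cons, ← Matrix.mulVec_mulVec]
    refine boxIdeal_anti ?_ (untiltMat_mulVec_mem e hK (hL M (List.mem_cons_self ..))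
      (ih (fun N hN => hL N (List.mem_cons_of_mem _ hN)) w x hx) i)
    rw [List.length_cons, Nat.succ_mul]
    omega

/-- **The colon by a product of untilt matrices.** -/
theorem mem_boxIdeal_of_untiltProd {R K : ℕ} (hK : 1 ≤ K) :
    ∀ (L : List (Matrix μ μ (MvPowerSeries (Fin d) (WittVector p F)))),
      (∀ M ∈ L, ∀ i j, M i j ∈ boxIdeal d p F R K (K + 1)) →
      ∀ (w : ℕ) (x : μ → MvPowerSeries (Fin d) (WittVector p F)),
        (∀ i, ((L.map (untiltMat e)).prod *ᵥ x) i ∈ boxIdeal d p F R K (w + L.length * K)) →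
        ∀ i, e ^ (L.length * (w + L.length * K)) * x i ∈ boxIdeal d p F R K w := by
  intro L
  induction L with
  | nil => exact fun _ w x hx i => by simpa using hx i
  | cons M L ih =>
    intro hL w x hx i
    set y := (L.map (untiltMat e)).prod *ᵥ x with hy
    have h1 : ∀ j, e * (p : MvPowerSeries (Fin d) (WittVector p F)) * y j - (M *ᵥ y) j ∈
        boxIdeal d p F R K (w + L.length * K + K) := fun j => by
      have := hx j
      rw [List.map_cons, List.prod_cons, ← Matrix.mulVec_mulVec, untiltMat_mulVec,
        List.length_cons, Nat.succ_mul] at this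
      rwa [show w + L.length * K + K = w + (L.length * K + K) by omega]
    have h2 := mem_boxIdeal_of_step hK e (hL M (List.mem_cons_self ..)) h1 (w + L.length * K) le_rfl
    have h3 := ih (fun N hN => hL N (List.mem_cons_of_mem _ hN)) w
      (e ^ (w + L.length * K) • x) (fun j => by
        rw [Matrix.mulVec_smul, ← hy, Pi.smul_apply, smul_eq_mul]
        exact h2 j) i
    rw [Pi.smul_apply, smul_eq_mul, ← mul_assoc, ← pow_add] at h3
    have hle : L.length * (w + L.length * K) + (w + L.length * K) ≤
        (M :: L).length * (w + (M :: L).length * K) := by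
      rw [List.length_cons, ← Nat.succ_mul]
      exact Nat.mul_le_mul_left _ (Nat.add_le_add_left (Nat.mul_le_mul_right _ (Nat.le_succ _)) _)
    rw [show (M :: L).length * (w + (M :: L).length * K) =
      ((M :: L).length * (w + (M :: L).length * K) -
        (L.length * (w + L.length * K) + (w + L.length * K))) +
      (L.length * (w + L.length * K) + (w + L.length * K)) by omega, pow_add, mul_assoc]
    exact Ideal.mul_mem_left _ _ h3

/-- Modulo weight `w`, the vectors sent by a product of untilt matrices to weight `w + l K` have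
small length. -/
theorem length_colon_untiltProd {R K w n : ℕ} (hR : 1 ≤ R) (hK : 1 ≤ K) (hn : w ≤ n * K)
    (α : Fin d →₀ ℕ)
    (L : List (Matrix μ μ (MvPowerSeries (Fin d) (WittVector p F))))
    (hL : ∀ M ∈ L, ∀ i j, M i j ∈ boxIdeal d p F R K (K + 1))
    (he : ¬ (p : WittVector p F) ∣
      MvPowerSeries.coeff α (e ^ (L.length * (w + L.length * K))))
    (C : Submodule (MvPowerSeries (Fin d) (WittVector p F)) (μ → MvPowerSeries (Fin d) (WittVector p F)))
    (hC : ∀ x ∈ C, ∀ i, ((L.map (untiltMat e)).prod *ᵥ x) i ∈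
      boxIdeal d p F R K (w + L.length * K)) :
    Module.length (MvPowerSeries (Fin d) (WittVector p F))
      ↥(C.map (LinearMap.pi fun i => ((boxIdeal d p F R K w :
        Submodule (MvPowerSeries (Fin d) (WittVector p F)) (MvPowerSeries (Fin d) (WittVector p F))).mkQ).comp
          (LinearMap.proj i))) ≤
      ((Fintype.card μ * (n * (degree α * (R * w) ^ (d - 1))) : ℕ) : ℕ∞) := by
  refine le_trans (Module.length_le_of_injective _ (Submodule.inclusion_injective
    (p' := LinearMap.ker (LinearMap.lsmul (MvPowerSeries (Fin d) (WittVector p F))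
      (μ → MvPowerSeries (Fin d) (WittVector p F) ⧸ boxIdeal d p F R K w)
      (e ^ (L.length * (w + L.length * K))))) ?_)) (length_box_ker_smul hR hK hn _ α he)
  rintro _ ⟨x, hx, rfl⟩
  rw [LinearMap.mem_ker]
  funext i
  exact (Submodule.Quotient.mk_eq_zero _).2 (mem_boxIdeal_of_untiltProd e hK L hL w x (hC x hx) i)

omit [CharP F p] [PerfectRing F p] in
theorem need_succ {R K v : ℕ} (hK : 1 ≤ K) (α : Fin d →₀ ℕ) :
    need R K v α = need R K (v - K) α + if zwt R α < v then 1 else 0 := by
  rw [need, need]
  split_ifs with h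
  · rcases le_or_gt K (v - zwt R α) with h1 | h1
    · rw [show v - zwt R α + K - 1 = (v - K - zwt R α + K - 1) + K by omega,
        Nat.add_div_right _ (by omega)]
    · rw [show v - K - zwt R α + K - 1 = K - 1 by omega, Nat.div_eq_of_lt (by omega : K - 1 < K),
        Nat.div_eq_of_lt_le (k := 1) (by omega) (by omega)]
  · rw [show v - zwt R α + K - 1 = K - 1 by omega, show v - K - zwt R α + K - 1 = K - 1 by omega,
      add_zero]

omit [CharP F p] [PerfectRing F p] in
theorem card_zwt_lt {R v : ℕ} (hR : 1 ≤ R) :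
    ((box d (R * v)).filter fun α : Fin d →₀ ℕ => zwt R α < v).card = R ^ d * monCount d v := by
  classical
  have h1 : ((box d (R * v)).filter fun α : Fin d →₀ ℕ => zwt R α < v).card =
      (((Finset.range v).biUnion fun j => Finset.finsuppAntidiag (Finset.univ : Finset (Fin d)) j)
        ×ˢ (Fintype.piFinset fun _ : Fin d => Finset.range R)).card := by
    refine Finset.card_bij'
      (fun α _ => (Finsupp.equivFunOnFinite.symm fun a => α a / R, fun a => α a % R))
      (fun q _ => Finsupp.equivFunOnFinite.symm fun a => R * q.1 a + q.2 a) ?_ ?_ ?_ ?_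
    · intro α hα
      obtain ⟨-, hz⟩ := Finset.mem_filter.1 hα
      refine Finset.mem_product.2 ⟨Finset.mem_biUnion.2 ⟨zwt R α, Finset.mem_range.2 hz,
        Finset.mem_finsuppAntidiag.2 ⟨rfl, Finset.subset_univ _⟩⟩,
        Fintype.mem_piFinset.2 fun a => Finset.mem_range.2 (Nat.mod_lt _ (by omega))⟩
    · intro q hq
      obtain ⟨hq1, hq2⟩ := Finset.mem_product.1 hq
      obtain ⟨j, hj, hq1⟩ := Finset.mem_biUnion.1 hq1
      have hsum : ∑ a, q.1 a = j := (Finset.mem_finsuppAntidiag.1 hq1).1
      have hlt : ∀ a, q.2 a < R := fun a => Finset.mem_range.1 (Fintype.mem_piFinset.1 hq2 a)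
      have hdiv : ∀ a, (R * q.1 a + q.2 a) / R = q.1 a := fun a => by
        rw [Nat.mul_add_div (by omega), Nat.div_eq_of_lt (hlt a), add_zero]
      have hjv := Finset.mem_range.1 hj
      refine Finset.mem_filter.2 ⟨mem_box.2 fun a => ?_, ?_⟩
      · have h1 : q.1 a ≤ j :=
          hsum ▸ Finset.single_le_sum (f := fun b => q.1 b) (fun b _ => Nat.zero_le _) (Finset.mem_univ a)
        have h2 := hlt a
        calc R * q.1 a + q.2 a < R * q.1 a + R := by omega
          _ = R * (q.1 a + 1) := by rw [Nat.mul_succ]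
          _ ≤ R * v := Nat.mul_le_mul_left _ (by omega)
      · simp only [zwt, Finsupp.equivFunOnFinite_symm_apply_apply, hdiv, hsum]
        exact hjv
    · intro α _
      ext a
      simp [Nat.div_add_mod]
    · intro q hq
      obtain ⟨-, hq2⟩ := Finset.mem_product.1 hq
      have hlt : ∀ a, q.2 a < R := fun a => Finset.mem_range.1 (Fintype.mem_piFinset.1 hq2 a)
      refine Prod.ext (Finsupp.ext fun a => ?_) (funext fun a => ?_)
      · simp [Nat.mul_add_div (show 0 < R by omega), Nat.div_eq_of_lt (hlt a)]
      · simp [Nat.mul_add_mod, Nat.mod_eq_of_lt (hlt a)]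
  rw [h1, Finset.card_product, Fintype.card_piFinset, Finset.card_biUnion, monCount, mul_comm]
  · simp [Finset.card_finsuppAntidiag_nat_eq_multichoose]
  · intro i _ j _ hij
    exact Finset.disjoint_left.2 fun x hi hj =>
      hij ((Finset.mem_finsuppAntidiag.1 hi).1.symm.trans (Finset.mem_finsuppAntidiag.1 hj).1)

omit [CharP F p] [PerfectRing F p] in
/-- A module modulo `P` is no longer than modulo `P'` plus modulo `range f ⊔ P` if `f P' ≤ P`. -/
theorem length_le_add_range_sup {A : Type*} [CommRing A] {V : Type*} [AddCommGroup V] [Module A V]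
    (f : V →ₗ[A] V) {P P' : Submodule A V} (h : P' ≤ P.comap f) :
    Module.length A (V ⧸ P) ≤
      Module.length A (V ⧸ P') + Module.length A (V ⧸ (LinearMap.range f ⊔ P)) := by
  have hh : P ≤ LinearMap.range f ⊔ P := le_sup_right
  let a : V ⧸ P' →ₗ[A] V ⧸ P := Submodule.mapQ P' P f h
  let b : V ⧸ P →ₗ[A] V ⧸ (LinearMap.range f ⊔ P) := Submodule.factor hh
  have hb : Function.Surjective b := Submodule.factor_surjective hh
  have hex : Function.Exact (LinearMap.range a).subtype b := by
    intro q
    obtain ⟨x, rfl⟩ := Submodule.Quotient.mk_surjective _ q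
    refine (Submodule.Quotient.mk_eq_zero _ (x := x)).trans ?_
    constructor
    · intro hx
      obtain ⟨_, ⟨y, rfl⟩, z, hz, rfl⟩ := Submodule.mem_sup.1 hx
      refine ⟨⟨_, Submodule.Quotient.mk y, rfl⟩, ?_⟩
      show Submodule.Quotient.mk (f y) = Submodule.Quotient.mk (f y + z)
      rw [Submodule.Quotient.eq, sub_add_cancel_left]
      exact neg_mem hz
    · rintro ⟨⟨_, y, rfl⟩, hy⟩
      obtain ⟨y, rfl⟩ := Submodule.Quotient.mk_surjective _ y
      have hy' := (Submodule.Quotient.eq P (x := f y) (y := x)).1 hy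
      rw [show x = f y + -(f y - x) by abel]
      exact add_mem (Submodule.mem_sup_left ⟨y, rfl⟩) (Submodule.mem_sup_right (neg_mem hy'))
  rw [Module.length_eq_add_of_exact (LinearMap.range a).subtype b (Submodule.injective_subtype _)
    hb hex]
  exact add_le_add (Module.length_le_of_surjective _ a.surjective_rangeRestrict) le_rfl

theorem length_pi_boxIdeal {R K : ℕ} (hR : 1 ≤ R) (hK : 1 ≤ K) (u : ℕ) :
    Module.length (MvPowerSeries (Fin d) (WittVector p F))
      ((μ → MvPowerSeries (Fin d) (WittVector p F)) ⧸ Submodule.pi Set.univ fun _ : μ =>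
        (boxIdeal d p F R K u : Submodule (MvPowerSeries (Fin d) (WittVector p F))
          (MvPowerSeries (Fin d) (WittVector p F)))) =
      ((Fintype.card μ * ∑ α ∈ box d (R * u), need R K u α : ℕ) : ℕ∞) := by
  rw [(Submodule.quotientPi fun _ : μ => (boxIdeal d p F R K u :
    Submodule (MvPowerSeries (Fin d) (WittVector p F))
      (MvPowerSeries (Fin d) (WittVector p F)))).length_eq, Module.length_pi_of_fintype]
  simp [length_quot_boxIdeal hR hK, Finset.sum_const, Finset.card_univ]

omit [CharP F p] [PerfectRing F p] in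
theorem sum_need_eq {R K v : ℕ} (hR : 1 ≤ R) (hK : 1 ≤ K) :
    ∑ α ∈ box d (R * v), need R K v α =
      (∑ α ∈ box d (R * (v - K)), need R K (v - K) α) + R ^ d * monCount d v := by
  classical
  rw [← card_zwt_lt (d := d) hR, Finset.card_filter,
    Finset.sum_congr rfl fun α _ => need_succ (R := R) (v := v) hK α, Finset.sum_add_distrib]
  congr 1
  refine (Finset.sum_subset ?_ fun α _ hα => need_eq_zero_of_not_mem_box hR hK hα).symm
  intro α hα
  exact mem_box.2 fun a => lt_of_lt_of_le (mem_box.1 hα a) (Nat.mul_le_mul_left _ (Nat.sub_le _ _))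

/-- **The quotient of a box by an untilt matrix is at least `R ^ d` truncated polynomial rings in
each coordinate.** -/
theorem length_quot_untiltMat {R K v : ℕ} (hR : 1 ≤ R) (hK : 1 ≤ K)
    {M : Matrix μ μ (MvPowerSeries (Fin d) (WittVector p F))}
    (hM : ∀ i j, M i j ∈ boxIdeal d p F R K (K + 1)) :
    ((Fintype.card μ * (R ^ d * monCount d v) : ℕ) : ℕ∞) ≤
      Module.length (MvPowerSeries (Fin d) (WittVector p F))
        ((μ → MvPowerSeries (Fin d) (WittVector p F)) ⧸
          (LinearMap.range (untiltMat e M).mulVecLin ⊔ Submodule.pi Set.univ fun _ : μ =>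
            (boxIdeal d p F R K v : Submodule (MvPowerSeries (Fin d) (WittVector p F))
              (MvPowerSeries (Fin d) (WittVector p F))))) := by
  have h := length_le_add_range_sup (untiltMat e M).mulVecLin
    (P := Submodule.pi Set.univ fun _ : μ => (boxIdeal d p F R K v :
      Submodule (MvPowerSeries (Fin d) (WittVector p F))
        (MvPowerSeries (Fin d) (WittVector p F))))
    (P' := Submodule.pi Set.univ fun _ : μ => (boxIdeal d p F R K (v - K) :
      Submodule (MvPowerSeries (Fin d) (WittVector p F))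
        (MvPowerSeries (Fin d) (WittVector p F))))
    (fun x hx i _ => boxIdeal_anti (show v ≤ v - K + K by omega)
      (untiltMat_mulVec_mem e hK hM (fun j => hx j (Set.mem_univ _)) i))
  rw [length_pi_boxIdeal hR hK, length_pi_boxIdeal hR hK, sum_need_eq hR hK, Nat.mul_add,
    Nat.cast_add] at h
  exact (ENat.addLECancellable_of_ne_top (ENat.natCast_ne_top _)).add_le_add_iff_left.1 h

end Vale.Agent.P202.Mixed.Lattice
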