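import Vale.Agent.P202.Mixed.Assemble.Data
import Vale.Agent.P202.Mixed.Lattice.Colon

/-!
# P202 mixed characteristic, lattice block: the lattice ring

`Lat p L d m` is `W(L)[[Y]]` over `W(L)[[X]]` by `X_a = Y_a ^ (p ^ m)`.  With `z a = Y_a ^ R` the
weight boxes are the sums of `p ^ j * (z) ^ b` over `w ≤ j K + b`.
-/

noncomputable section

namespace Vale.Agent.P202.Mixed.Lattice

open MvPowerSeries Finsupp

universe u

/-- The series ring over Witt vectors. -/
abbrev PS (p : ℕ) [Fact p.Prime] (L : Type u) [CommRing L] (d : ℕ) : Type u :=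
  MvPowerSeries (Fin (d + 1)) (WittVector p L)

/-- The lattice ring: series in the `p ^ m`-th roots of the variables. -/
def Lat (p : ℕ) [Fact p.Prime] (L : Type u) [CommRing L] (d _m : ℕ) : Type u := PS p L d

variable {p : ℕ} [Fact p.Prime] {L : Type u} [CommRing L] {d m : ℕ}

instance : CommRing (Lat p L d m) := inferInstanceAs (CommRing (PS p L d))

instance : Algebra (WittVector p L) (Lat p L d m) :=
  inferInstanceAs (Algebra (WittVector p L) (PS p L d))

theorem pow_ne_zero' (p : ℕ) [Fact p.Prime] (m : ℕ) : p ^ m ≠ 0 :=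
  pow_ne_zero _ (Fact.out : p.Prime).ne_zero

/-- The inclusion of the series in the variables. -/
def expandLat : PS p L d →+* Lat p L d m :=
  (MvPowerSeries.expand (p ^ m) (pow_ne_zero' p m)).toRingHom

instance : Algebra (PS p L d) (Lat p L d m) := (expandLat (m := m)).toAlgebra

/-- A series as an element of the lattice ring. -/
def toLat (f : PS p L d) : Lat p L d m := f

theorem algebraMap_lat (π : PS p L d) :
    algebraMap (PS p L d) (Lat p L d m) π = MvPowerSeries.expand (p ^ m) (pow_ne_zero' p m) π := rfl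

instance : IsScalarTower (WittVector p L) (PS p L d) (Lat p L d m) :=
  IsScalarTower.of_algebraMap_eq fun c =>
    ((MvPowerSeries.expand (p ^ m) (pow_ne_zero' p m)).commutes c).symm

/-- The operators on the lattice. -/
def zOp (p : ℕ) [Fact p.Prime] (L : Type u) [CommRing L] (d R : ℕ) : Fin (d + 1) → PS p L d :=
  fun a => MvPowerSeries.X a ^ R

theorem zOp_pow {R Q : ℕ} (h : p ^ m = R * Q) (a : Fin (d + 1)) :
    (show Lat p L d m from zOp p L d R a) ^ Q =
      algebraMap (PS p L d) (Lat p L d m) (MvPowerSeries.X a) := by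
  rw [algebraMap_lat, MvPowerSeries.expand_X, h]
  exact (pow_mul _ _ _).symm

open Assemble in
theorem monomial_mem_zId_pow {R : ℕ} (α : Fin (d + 1) →₀ ℕ) (c : WittVector p L) :
    (MvPowerSeries.monomial α c : PS p L d) ∈ zId (zOp p L d R) ^ zwt R α := by
  classical
  have h1 : (MvPowerSeries.monomial α c : PS p L d) = MvPowerSeries.C c *
      ((∏ a, (MvPowerSeries.X a : PS p L d) ^ (α a % R)) * ∏ a, zOp p L d R a ^ (α a / R)) := by
    rw [← Finset.prod_mul_distrib, Finset.prod_congr rfl fun a _ =>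
      show (MvPowerSeries.X a : PS p L d) ^ (α a % R) * zOp p L d R a ^ (α a / R) =
        MvPowerSeries.X a ^ α a by rw [zOp, ← pow_mul, ← pow_add, Nat.mod_add_div],
      ← Finsupp.prod_fintype α (fun a e => (MvPowerSeries.X a : PS p L d) ^ e) fun a => pow_zero _,
      ← MvPowerSeries.monomial_one_eq, ← MvPowerSeries.smul_eq_C_mul, ← map_smul, smul_eq_mul,
      mul_one]
  rw [h1, zwt, ← Finset.prod_pow_eq_pow_sum]
  exact Ideal.mul_mem_left _ _ (Ideal.mul_mem_left _ _ (Ideal.prod_mem_prod fun a _ =>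
    Ideal.pow_mem_pow (Ideal.subset_span (Set.mem_range_self a)) _))

open Assemble in
theorem sub_box_sum_mem_zId_pow {R b : ℕ} (f : PS p L d) :
    f - ∑ α ∈ box (d + 1) (R * b), MvPowerSeries.monomial α (MvPowerSeries.coeff α f) ∈
      zId (zOp p L d R) ^ b := by
  classical
  refine (Ideal.span_le.2 ?_) (mem_span_X_pow (M := R * b) fun β hβ => ?_)
  · rintro _ ⟨a, rfl⟩
    show (MvPowerSeries.X a : PS p L d) ^ (R * b) ∈ _
    rw [pow_mul]
    exact Ideal.pow_mem_pow (Ideal.subset_span (Set.mem_range_self a)) _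
  · rw [map_sub, map_sum, Finset.sum_eq_single β
      (fun γ _ hγ => MvPowerSeries.coeff_monomial_ne hγ.symm _) (fun h => absurd hβ h),
      MvPowerSeries.coeff_monomial_same, sub_self]

open Assemble in
/-- A series all whose terms have weight at least `b` in the operators lies in `(z) ^ b`. -/
theorem mem_zId_pow_of_zwt {R b : ℕ} {f : PS p L d}
    (h : ∀ α, zwt R α < b → MvPowerSeries.coeff α f = 0) : f ∈ zId (zOp p L d R) ^ b := by
  classical
  rw [← sub_add_cancel f
    (∑ α ∈ box (d + 1) (R * b), MvPowerSeries.monomial α (MvPowerSeries.coeff α f))]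
  refine add_mem (sub_box_sum_mem_zId_pow f) (sum_mem fun α _ => ?_)
  rcases lt_or_ge (zwt R α) b with hb | hb
  · rw [h α hb, map_zero]
    exact zero_mem _
  · exact Ideal.pow_le_pow_right hb (monomial_mem_zId_pow α _)

open Assemble in
theorem ordIdeal_le_zId_pow {R b : ℕ} (hR : 1 ≤ R) :
    ordIdeal (Fin (d + 1)) (WittVector p L) (R * b + (d + 1) * (R - 1)) ≤
      zId (zOp p L d R) ^ b := fun _ hf =>
  mem_zId_pow_of_zwt fun α hα => hf α (not_le.1 fun h => not_le.2 hα (le_zwt_of_le_degree hR h))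

open Assemble in
theorem zId_pow_le_boxIdeal {R K : ℕ} (hR : 1 ≤ R) (hK : 1 ≤ K) :
    ∀ b, zId (zOp p L d R) ^ b ≤ boxIdeal (d + 1) p L R K b
  | 0 => by rw [boxIdeal_zero hK]; exact le_top
  | b + 1 => by
    rw [pow_succ]
    refine Ideal.mul_le.2 fun x hx y hy => mul_mem_boxIdeal hK (zId_pow_le_boxIdeal hR hK b hx) ?_
    refine (Ideal.span_le.2 ?_) hy
    rintro _ ⟨a, rfl⟩
    exact X_pow_mem_boxIdeal hR hK a (Nat.le_of_eq (mul_one R))

theorem boxIdeal_mul_le {R K : ℕ} (hK : 1 ≤ K) (w w' : ℕ) :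
    boxIdeal (d + 1) p L R K w * boxIdeal (d + 1) p L R K w' ≤
      boxIdeal (d + 1) p L R K (w + w') :=
  Ideal.mul_le.2 fun _ hx _ hy => mul_mem_boxIdeal hK hx hy

open Assemble in
theorem boxIdeal_le_iSup {R K : ℕ} (hK : 1 ≤ K) (w : ℕ) :
    boxIdeal (d + 1) p L R K w ≤ ⨆ (j : ℕ) (b : ℕ) (_ : w ≤ j * K + b),
      Ideal.span {(p : PS p L d) ^ j} * zId (zOp p L d R) ^ b := by
  classical
  intro f hf
  have hle : ∀ j b : ℕ, w ≤ j * K + b →
      Ideal.span {(p : PS p L d) ^ j} * zId (zOp p L d R) ^ b ≤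
        ⨆ (j : ℕ) (b : ℕ) (_ : w ≤ j * K + b),
          Ideal.span {(p : PS p L d) ^ j} * zId (zOp p L d R) ^ b := fun j b h =>
    le_iSup_of_le j (le_iSup₂_of_le b h le_rfl)
  rw [← sub_add_cancel f
    (∑ α ∈ box (d + 1) (R * w), MvPowerSeries.monomial α (MvPowerSeries.coeff α f))]
  refine add_mem (hle 0 w (by omega) ?_) (sum_mem fun α _ => ?_)
  · rw [pow_zero, Ideal.span_singleton_one, Ideal.top_mul]
    exact sub_box_sum_mem_zId_pow f
  · obtain ⟨c, hc⟩ := hf α
    refine hle (need R K w α) (zwt R α) ((need_le_iff hK α).1 le_rfl) ?_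
    rw [hc, ← mul_one ((p : WittVector p L) ^ need R K w α * c), mul_assoc, mul_one,
      show MvPowerSeries.monomial α ((p : WittVector p L) ^ need R K w α * c) =
        (p : PS p L d) ^ need R K w α * MvPowerSeries.monomial α c from
        MvPowerSeries.ext fun β => by
          rw [coeff_natCast_pow_mul, MvPowerSeries.coeff_monomial, MvPowerSeries.coeff_monomial]
          split_ifs <;> simp]
    exact Ideal.mul_mem_mul (Ideal.mem_span_singleton_self _) (monomial_mem_zId_pow α c)

theorem card_box (D M : ℕ) : (box D M).card = M ^ D := by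
  rw [box, Finset.card_map, Fintype.card_piFinset, Finset.prod_const, Finset.card_range,
    Finset.card_univ, Fintype.card_fin]

/-- Every series is a combination of the monomials below `M` over series in `M`-th powers. -/
theorem eq_sum_expand_mul {M : ℕ} (hM : M ≠ 0) (f : PS p L d) :
    f = ∑ β ∈ box (d + 1) M, MvPowerSeries.expand M hM
      (show PS p L d from fun γ => MvPowerSeries.coeff (M • γ + β) f) *
        MvPowerSeries.monomial β 1 := by
  classical
  refine MvPowerSeries.ext fun γ => ?_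
  let β₀ : Fin (d + 1) →₀ ℕ := Finsupp.equivFunOnFinite.symm fun a => γ a % M
  let γ₀ : Fin (d + 1) →₀ ℕ := Finsupp.equivFunOnFinite.symm fun a => γ a / M
  have hγ : M • γ₀ + β₀ = γ := by
    ext a
    simp [β₀, γ₀, Nat.div_add_mod]
  rw [map_sum, Finset.sum_eq_single β₀]
  · rw [MvPowerSeries.coeff_mul_monomial, if_pos (hγ ▸ le_add_left le_rfl), mul_one,
      show γ - β₀ = M • γ₀ by rw [← hγ, add_tsub_cancel_right],
      MvPowerSeries.coeff_expand_smul]
    show _ = MvPowerSeries.coeff (M • γ₀ + β₀) f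
    rw [hγ]
  · intro β hβ hne
    rw [MvPowerSeries.coeff_mul_monomial]
    split_ifs with hle
    · obtain ⟨a, ha⟩ : ∃ a, ¬ M ∣ (γ - β) a := by
        by_contra hall
        push Not at hall
        refine hne (Finsupp.ext fun a => ?_)
        obtain ⟨q, hq'⟩ := hall a
        rw [Finsupp.tsub_apply] at hq'
        have h1 := hle a
        have h2 : γ a = β a + M * q := by omega
        simp [β₀, h2, Nat.mod_eq_of_lt (mem_box.1 hβ a)]
      rw [MvPowerSeries.coeff_expand_of_not_dvd _ _ _ ha, zero_mul]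
    · rfl
  · intro h
    exact absurd (mem_box.2 fun a => by simpa [β₀] using Nat.mod_lt _ (Nat.pos_of_ne_zero hM)) h

/-- The monomials below `p ^ m` span the lattice ring over the series in the variables. -/
theorem exists_gens : ∃ a : Fin ((p ^ m) ^ (d + 1)) → Lat p L d m,
    Submodule.span (PS p L d) (Set.range a) = ⊤ := by
  let e := (box (d + 1) (p ^ m)).equivFinOfCardEq (card_box (d + 1) (p ^ m))
  let a : Fin ((p ^ m) ^ (d + 1)) → Lat p L d m :=
    fun i => toLat (MvPowerSeries.monomial (e.symm i).1 1)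
  refine ⟨a, eq_top_iff.2 fun f _ => ?_⟩
  let π : (Fin (d + 1) →₀ ℕ) → PS p L d := fun β γ =>
    MvPowerSeries.coeff (R := WittVector p L) (p ^ m • γ + β) f
  have hf : f = ∑ β ∈ box (d + 1) (p ^ m), algebraMap (PS p L d) (Lat p L d m) (π β) *
      toLat (MvPowerSeries.monomial β 1) :=
    eq_sum_expand_mul (pow_ne_zero' p m) f
  simp only [← Algebra.smul_def] at hf
  rw [hf]
  refine sum_mem fun β hβ => Submodule.smul_mem _ _ (Submodule.subset_span ⟨e ⟨β, hβ⟩, ?_⟩)
  simp only [a, Equiv.symm_apply_apply]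

section Lengths

variable {F : Type u} [Field F] [CharP F p] [PerfectRing F p] {r : ℕ}

omit [CharP F p] [PerfectRing F p] in
theorem isScalarTower_quot {S M : Type*} [CommRing S] [AddCommGroup M] [Module S M]
    [Algebra (WittVector p F) S] [Module (WittVector p F) M] [IsScalarTower (WittVector p F) S M]
    (N : Submodule S M) : IsScalarTower (WittVector p F) S (M ⧸ N) := inferInstance

/-- Lengths over the series in the variables are lengths over the lattice ring. -/
theorem length_lat_quot (N : Submodule (Lat p F d m) (Fin r → Lat p F d m)) :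
    Module.length (PS p F d) ((Fin r → Lat p F d m) ⧸ N.restrictScalars (PS p F d)) =
      Module.length (Lat p F d m) ((Fin r → Lat p F d m) ⧸ N) := by
  rw [(Submodule.Quotient.restrictScalarsEquiv (PS p F d) N).length_eq, length_series_eq]
  let N' : Submodule (PS p F d) (Fin r → PS p F d) := N
  have h : Module.length (PS p F d) ((Fin r → PS p F d) ⧸ N') =
      Module.length (WittVector p F) ((Fin r → PS p F d) ⧸ N') := length_series_eq
  exact h.symm

end Lengths

end Vale.Agent.P202.Mixed.Lattice
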