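import Vale.Agent.P202.Mixed.Lattice.FieldFrame
import Vale.Agent.P202.Mixed.Lattice.Lat

/-!
# P202 mixed characteristic, lattice block: the evaluation on the lattice extends the natural one

On the lattice ring of the scale `e + n` the evaluation of the frame restricts to the natural
evaluation `W(k)[[X]] → W(T0)`.
-/

noncomputable section

namespace Vale.Agent.P202.Mixed.Lattice

open MvPowerSeries Finsupp

universe u

section Expand

variable {σ : Type*} [Finite σ] {p : ℕ} [Fact p.Prime] {k : Type*} [CommRing k] {M : ℕ} (hM : M ≠ 0)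

omit [Finite σ] [Fact p.Prime] in
theorem expand_mem_ordIdeal {N : ℕ} {f : MvPowerSeries σ k} (hf : f ∈ ordIdeal σ k N) :
    MvPowerSeries.expand M hM f ∈ ordIdeal σ k N := fun α hα => by
  by_cases h : ∀ i, M ∣ α i
  · obtain ⟨β, hβ⟩ : ∃ β, M • β = α := ⟨α.mapRange (fun a ↦ a / M) (by simp),
      by ext i; simp [Nat.mul_div_cancel' (h i)]⟩
    subst hβ
    rw [coeff_expand_smul]
    refine hf β (lt_of_le_of_lt ?_ hα)
    rw [map_nsmul, smul_eq_mul]
    exact Nat.le_mul_of_pos_left _ (Nat.pos_of_ne_zero hM)
  · push Not at h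
    obtain ⟨i, hi⟩ := h
    exact coeff_expand_of_not_dvd M hM f hi

omit [Finite σ] in
theorem evalPoly_expand (P : MvPolynomial σ (WittVector p k)) :
    evalPoly σ p k (MvPolynomial.expand M P) =
      WittVector.map (MvPowerSeries.expand M hM).toRingHom (evalPoly σ p k P) := by
  have h : (evalPoly σ p k).comp (MvPolynomial.expand M).toRingHom =
      (WittVector.map (MvPowerSeries.expand (σ := σ) (R := k) M hM).toRingHom).comp
        (evalPoly σ p k) := by
    refine MvPolynomial.ringHom_ext (fun c => ?_) fun i => ?_
    · ext j : 1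
      simp [evalPoly, WittVector.map_coeff, MvPowerSeries.expand_C]
    · simp [evalPoly, WittVector.map_teichmuller, ← map_pow]
  exact RingHom.congr_fun h P

/-- The evaluation commutes with the expansion. -/
theorem evalW_expand (a : MvPowerSeries σ (WittVector p k)) :
    evalW σ p k (MvPowerSeries.expand M hM a) =
      WittVector.map (MvPowerSeries.expand M hM).toRingHom (evalW σ p k a) := by
  refine ext_redW fun N => ?_
  show redW σ p k N (evalFun _) = redW σ p k N (WittVector.map _ (evalFun a))
  rw [redW_evalFun, redW_evalPoly_congr (truncTotal N (MvPowerSeries.expand M hM a))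
    (MvPolynomial.expand M (truncTotal N a)) fun α hα => ?_, evalPoly_expand hM]
  · have h := redW_evalFun N a
    rw [redW_eq_iff] at h ⊢
    intro i α hα
    rw [WittVector.map_coeff, WittVector.map_coeff]
    have h' : (evalFun a).coeff i - (evalPoly σ p k (truncTotal N a)).coeff i ∈
        ordIdeal σ k N := fun β hβ => by rw [map_sub, h i β hβ, sub_self]
    have := expand_mem_ordIdeal hM h' α hα
    rw [map_sub, map_sub, sub_eq_zero] at this
    exact this.symm
  · rw [coeff_truncTotal _ hα]
    by_cases h : ∀ i, M ∣ α i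
    · obtain ⟨β, rfl⟩ : ∃ β, M • β = α := ⟨α.mapRange (fun a ↦ a / M) (by simp),
        by ext i; simp [Nat.mul_div_cancel' (h i)]⟩
      rw [coeff_expand_smul, MvPolynomial.coeff_expand_smul _ hM, coeff_truncTotal]
      refine lt_of_le_of_lt ?_ hα
      rw [map_nsmul, smul_eq_mul]
      exact Nat.le_mul_of_pos_left _ (Nat.pos_of_ne_zero hM)
    · push Not at h
      obtain ⟨i, hi⟩ := h
      rw [coeff_expand_of_not_dvd M hM a hi, MvPolynomial.coeff_expand_of_not_dvd _ hi]

end Expand

variable (p : ℕ) [Fact p.Prime] (k : Type u) [_root_.Field k] [CharP k p] [PerfectRing k p] {d : ℕ}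

omit [PerfectRing k p] in
theorem psiRoot_expand (m : ℕ) (f : Field.Ser k d) :
    Field.psiRoot p k d m (MvPowerSeries.expand (p ^ m) (pow_ne_zero' p m) f) =
      algebraMap (Field.Ser k d) (Field.T0 k d) f := by
  apply Field.pow_injective p k d m
  show Field.psiRoot p k d m _ ^ p ^ m = _ ^ p ^ m
  rw [Field.psiRoot_pow, map_iterateFrobenius_expand p (Fact.out : p.Prime).ne_zero f m, map_pow]

/-- The evaluation of the frame extends the natural evaluation. -/
theorem frameOfLevel_φ_algebraMap (Lv : Field.Level p k d) (e n : ℕ) (π : PS p k d) :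
    (frameOfLevel p k Lv e n).φ (algebraMap (PS p k d) (Lat p k d (e + n)) π) =
      evalT (algebraMap (Field.Ser k d) (Field.T0 k d)) π := by
  show WittVector.map (Field.psiRoot p k d (e + n)) (evalW _ p k
    (MvPowerSeries.expand (p ^ (e + n)) (pow_ne_zero' p (e + n)) π)) = _
  rw [evalW_expand, ← RingHom.comp_apply, evalT, RingHom.comp_apply]
  refine WittVector.ext fun i => ?_
  rw [RingHom.comp_apply, WittVector.map_coeff, WittVector.map_coeff, WittVector.map_coeff]
  exact psiRoot_expand p k (e + n) _

end Vale.Agent.P202.Mixed.Lattice
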