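import Vale.Agent.P202.Mixed.Lattice.Lat

/-!
# P202 mixed characteristic, lattice block: lengths of quotients of lattice vectors
-/

noncomputable section

namespace Vale.Agent.P202.Mixed.Lattice

open MvPowerSeries Finsupp Assemble

universe u

section Order

variable {σ : Type*} {k : Type*} [CommRing k] [IsDomain k]

omit [IsDomain k] in
theorem order_le_iff_exists {f : MvPowerSeries σ k} {o : ℕ} :
    f.order ≤ (o : ℕ∞) ↔ ∃ α : σ →₀ ℕ, degree α ≤ o ∧ MvPowerSeries.coeff α f ≠ 0 := by
  refine ⟨fun h => ?_, fun ⟨α, hα, hne⟩ =>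
    (MvPowerSeries.order_le hne).trans (by exact_mod_cast hα)⟩
  have hne : f.order ≠ ⊤ := ne_top_of_le_ne_top (ENat.natCast_ne_top _) h
  obtain ⟨α, hα, hdeg⟩ := MvPowerSeries.exists_coeff_ne_zero_and_order (f := f)
    (ENat.natCast_toNat hne)
  rw [← hdeg] at h
  exact ⟨α, by exact_mod_cast h, hα⟩

theorem order_mul_le {f g : MvPowerSeries σ k} {a b : ℕ} (hf : f.order ≤ (a : ℕ∞))
    (hg : g.order ≤ (b : ℕ∞)) : (f * g).order ≤ ((a + b : ℕ) : ℕ∞) := by
  rw [MvPowerSeries.order_mul, Nat.cast_add]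
  exact add_le_add hf hg

theorem order_pow_le {f : MvPowerSeries σ k} {a : ℕ} (hf : f.order ≤ (a : ℕ∞)) :
    ∀ j : ℕ, (f ^ j).order ≤ ((j * a : ℕ) : ℕ∞)
  | 0 => by
    rw [Nat.zero_mul, pow_zero]
    exact (MvPowerSeries.order_le (d := 0) (by simp)).trans (by simp)
  | j + 1 => by rw [pow_succ, Nat.succ_mul]; exact order_mul_le (order_pow_le hf j) hf

end Order

variable {p : ℕ} [Fact p.Prime] {F : Type u} [Field F] [CharP F p] [PerfectRing F p] {d m : ℕ}
  {r : ℕ}

theorem not_p_dvd_coeff {e : PS p F d} {α : Fin (d + 1) →₀ ℕ}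
    (h : MvPowerSeries.coeff α (MvPowerSeries.map WittVector.constantCoeff e) ≠ 0) :
    ¬ (p : WittVector p F) ∣ MvPowerSeries.coeff α e := fun hd => h (by
  rw [MvPowerSeries.coeff_map]
  exact (dvd_iff_coeff_zero _).1 hd)

/-- Vectors with entries in `I`. -/
abbrev vecS (I : Ideal (PS p F d)) : Submodule (PS p F d) (Fin r → PS p F d) :=
  Submodule.pi Set.univ fun _ => I

/-- The quotient of vectors by a submodule containing the multiples of a scalar and a cut box. -/
theorem length_quot_le_scalar {e : PS p F d} {o : ℕ}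
    (he : (MvPowerSeries.map WittVector.constantCoeff e).order ≤ (o : ℕ∞)) (n M : ℕ)
    {N : Submodule (PS p F d) (Fin r → PS p F d)}
    (h : vecS (Ideal.span {e} ⊔ cutIdeal (d + 1) p F n M) ≤ N) :
    Module.length (PS p F d) ((Fin r → PS p F d) ⧸ N) ≤
      ((r * (n * (o * M ^ d)) : ℕ) : ℕ∞) := by
  obtain ⟨α, hα, hne⟩ := order_le_iff_exists.1 he
  refine (Module.length_le_of_surjective (Submodule.factor h)
    (Submodule.factor_surjective h)).trans ?_
  rw [(Submodule.quotientPi fun _ : Fin r => (Ideal.span {e} ⊔ cutIdeal (d + 1) p F n M :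
    Submodule (PS p F d) (PS p F d))).length_eq, Module.length_pi_of_fintype]
  refine (Finset.sum_le_card_nsmul _ _ ((n * (o * M ^ d) : ℕ) : ℕ∞) fun i _ =>
    (length_quot_scalar e α (not_p_dvd_coeff hne) n M).trans ?_).trans ?_
  · rw [Nat.add_sub_cancel]
    exact Nat.cast_le.2 (Nat.mul_le_mul_left n (Nat.mul_le_mul_right _ hα))
  · rw [Finset.card_univ, Fintype.card_fin, nsmul_eq_mul, ← Nat.cast_mul]

omit [CharP F p] [PerfectRing F p] in
theorem boxIdeal_one_le_cutIdeal (n M : ℕ) :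
    boxIdeal (d + 1) p F 1 1 (n + (d + 1) * M) ≤ cutIdeal (d + 1) p F n M := fun f hf => by
  classical
  rw [← sub_add_cancel f
    (∑ α ∈ box (d + 1) M, MvPowerSeries.monomial α (MvPowerSeries.coeff α f))]
  refine add_mem (Submodule.mem_sup_right (mem_span_X_pow fun β hβ => ?_))
    (sum_mem fun α hα => Submodule.mem_sup_left (Ideal.mem_span_singleton.2 ?_))
  · rw [map_sub, map_sum, Finset.sum_eq_single β
      (fun γ _ hγ => MvPowerSeries.coeff_monomial_ne hγ.symm _) (fun h => absurd hβ h),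
      MvPowerSeries.coeff_monomial_same, sub_self]
  · obtain ⟨c, hc⟩ := hf α
    have hz : zwt 1 α ≤ (d + 1) * M := by
      calc zwt 1 α ≤ ∑ _a : Fin (d + 1), M :=
            Finset.sum_le_sum fun a _ => by rw [Nat.div_one]; exact (mem_box.1 hα a).le
        _ = (d + 1) * M := by simp
    have hn : n ≤ need 1 1 (n + (d + 1) * M) α := by
      have := (need_le_iff (R := 1) (w := n + (d + 1) * M) le_rfl α).1 le_rfl
      omega
    obtain ⟨j, hj⟩ := Nat.exists_eq_add_of_le hn
    refine ⟨MvPowerSeries.monomial α ((p : WittVector p F) ^ j * c), MvPowerSeries.ext fun β => ?_⟩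
    rw [coeff_natCast_pow_mul, MvPowerSeries.coeff_monomial, MvPowerSeries.coeff_monomial, hc, hj,
      pow_add]
    split_ifs <;> ring

/-- The quotient by a cut box has finite length. -/
theorem length_quot_cut_ne_top (n M : ℕ) {N : Submodule (PS p F d) (Fin r → PS p F d)}
    (h : vecS (cutIdeal (d + 1) p F n M) ≤ N) :
    Module.length (PS p F d) ((Fin r → PS p F d) ⧸ N) ≠ ⊤ := by
  have h' : vecS (boxIdeal (d + 1) p F 1 1 (n + (d + 1) * M)) ≤ N :=
    fun x hx => h fun i hi => boxIdeal_one_le_cutIdeal n M (hx i hi)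
  refine ne_top_of_le_ne_top ?_
    (Module.length_le_of_surjective (Submodule.factor h') (Submodule.factor_surjective h'))
  rw [length_pi_boxIdeal le_rfl le_rfl]
  exact ENat.natCast_ne_top _

theorem monCount_one : monCount (d + 1) 1 = 1 := by
  simp [monCount]

/-- The count of generators. -/
theorem length_quot_box_one {R K : ℕ} (hR : 1 ≤ R) (hK : 1 ≤ K) :
    Module.length (PS p F d) ((Fin r → PS p F d) ⧸ vecS (boxIdeal (d + 1) p F R K 1)) =
      ((r * R ^ (d + 1) : ℕ) : ℕ∞) := by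
  rw [length_pi_boxIdeal hR hK, sum_need_eq hR hK, monCount_one, Fintype.card_fin,
    show 1 - K = 0 by omega, mul_one]
  have : box (d + 1) (R * 0) = ∅ := Finset.eq_empty_of_forall_notMem fun α hα =>
    Nat.not_lt_zero (α 0) (by simpa using mem_box.1 hα 0)
  rw [this, Finset.sum_empty, zero_add]

/-- The recursion of the boxes. -/
theorem length_quot_box_add {R K : ℕ} (hR : 1 ≤ R) (hK : 1 ≤ K) (v : ℕ) :
    Module.length (PS p F d) ((Fin r → PS p F d) ⧸ vecS (boxIdeal (d + 1) p F R K (v - K))) +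
      ((r * R ^ (d + 1) * monCount (d + 1) v : ℕ) : ℕ∞) =
    Module.length (PS p F d) ((Fin r → PS p F d) ⧸ vecS (boxIdeal (d + 1) p F R K v)) := by
  rw [length_pi_boxIdeal hR hK, length_pi_boxIdeal hR hK, sum_need_eq (v := v) hR hK,
    Fintype.card_fin, ← Nat.cast_add, Nat.mul_add, mul_assoc]

end Vale.Agent.P202.Mixed.Lattice
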