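import Vale.Agent.P202.Mixed.Lattice.Ker
import Vale.Agent.P202.Mixed.Lattice.Lengths
import Vale.Agent.P202.Mixed.Extend.Basic

/-!
# P202 mixed characteristic, lattice block: the data of a chain from a frame

From a frame over the lattice ring and, for each untilt, the extension `ρ` of the evaluation to
`B` with representatives of the slack, `exists_data` gives `Assemble.Data`.  The error is
any bound for the cokernels of the scalar `δ ^ S` and of the slack matrix at weight `v`.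
-/

noncomputable section

namespace Vale.Agent.P202.Mixed.Lattice

open MvPowerSeries Assemble Matrix Extend

universe u

variable {p : ℕ} [Fact p.Prime] {L : Type u} [_root_.Field L] [CharP L p] [PerfectRing L p]
  {d m : ℕ} {T : Type u} [CommRing T] {O : Type u} [CommRing O] {r n : ℕ}

/-- The untilts of a chain over a frame, with representatives of the slack at weight `K`. -/
structure Untilts (F : Frame p (Fin (d + 1)) L T O (Fin r) n)
    (θ : PS p L d →+* WittVector p T) (B : Type u) [CommRing B] [Algebra (PS p L d) B]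
    (R K : ℕ) {mB mM : ℕ} (u : T) (genB : Fin mB → B) (genM : Fin mM → B) where
  t : ℕ → T
  t_ne : ∀ l, t l ≠ 0
  t_mem : ∀ l, t l ∈ F.C 0
  t_div : ∀ l, F.s ^ (R * (K + 1) + (d + 1) * (R - 1) + n * F.κ) ∣ F.ι (t l)
  S : ℕ → Type u
  [ring : ∀ l, CommRing (S l)]
  j : ∀ l, T →+* S l
  desc : ∀ l (x : WittVector p T),
    WittVector.map (j l) x ∈ tiltI (j l (t l)) n → x ∈ tiltI (t l) n
  ρ : ∀ l, B →+* WittVector p (S l) ⧸ tiltI (j l (t l)) n
  ρ_eq : ∀ l π, ρ l (algebraMap (PS p L d) B π) =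
    Ideal.Quotient.mk _ (WittVector.map (j l) (θ π))
  wB : ℕ → Fin mB → WittVector p T
  wB_mem : ∀ l i, wB l i ∈ F.levW 0
  wB_eq : ∀ l i, Ideal.Quotient.mk _ (WittVector.map (j l) (WittVector.teichmuller p u)) *
    ρ l (genB i) = Ideal.Quotient.mk _ (WittVector.map (j l) (wB l i))
  wM : ℕ → Fin mM → WittVector p T
  wM_mem : ∀ l i, wM l i ∈ F.levW 0
  wM_div : ∀ l i, WittVector.teichmuller p (F.s ^ (R * K + (d + 1) * (R - 1) + n * F.κ)) ∣
    WittVector.map F.ι (wM l i)
  wM_eq : ∀ l i, Ideal.Quotient.mk _ (WittVector.map (j l) (WittVector.teichmuller p u)) *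
    ρ l (genM i) = Ideal.Quotient.mk _ (WittVector.map (j l) (wM l i))

attribute [instance] Untilts.ring

variable {F : Frame p (Fin (d + 1)) L T O (Fin r) n} {θ : PS p L d →+* WittVector p T}
  {B : Type u} [CommRing B] [Algebra (PS p L d) B] {R K : ℕ} {mB mM : ℕ} {u : T}
  {genB : Fin mB → B} {genM : Fin mM → B}

/-- The evaluation to the quotient of an untilt. -/
abbrev Untilts.J (U : Untilts F θ B R K u genB genM) (l : ℕ) :
    WittVector p T →+* WittVector p (U.S l) ⧸ tiltI (U.j l (U.t l)) n :=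
  (Ideal.Quotient.mk _).comp (WittVector.map (U.j l))

omit [CharP L p] [PerfectRing L p] in
theorem Untilts.J_p_pow (U : Untilts F θ B R K u genB genM) (l : ℕ) :
    U.J l ((p : WittVector p T) ^ n) = 0 := by
  rw [RingHom.comp_apply, map_pow, map_natCast, Ideal.Quotient.eq_zero_iff_mem]
  exact Ideal.subset_span (Set.mem_insert_of_mem _ rfl)

omit [CharP L p] [PerfectRing L p] in
theorem Untilts.J_xi (U : Untilts F θ B R K u genB genM) (l : ℕ) :
    U.J l ((p : WittVector p T) - WittVector.teichmuller p (U.t l)) = 0 := by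
  rw [RingHom.comp_apply, map_sub, map_natCast, WittVector.map_teichmuller,
    Ideal.Quotient.eq_zero_iff_mem]
  exact xi_mem _ _

variable [CharP T p] [PerfectRing T p] [CharP O p] [PerfectRing O p] [IsDomain O] {l : ℕ}

omit [CharP T p] [PerfectRing T p] [CharP O p] [PerfectRing O p] [IsDomain O] [CharP L p]
  [PerfectRing L p] in
/-- The reduction of the scalar. -/
theorem order_scalar_le {oc : ℕ} (hc : F.cy.order ≤ (oc : ℕ∞)) (S : ℕ) :
    (MvPowerSeries.map WittVector.constantCoeff (F.δ ^ S)).order ≤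
      ((p ^ n * (S * oc) : ℕ) : ℕ∞) := by
  simp only [map_pow, Frame.δ, map_liftPS]
  refine (order_pow_le (order_pow_le hc (p ^ n)) S).trans (le_of_eq ?_)
  congr 1
  ring

omit [CharP T p] [PerfectRing T p] [CharP O p] [PerfectRing O p] [IsDomain O] [CharP L p]
  [PerfectRing L p] in
theorem prodΔ_rep {Δ : ℕ → Matrix (Fin r) (Fin r) (Lat p L d m)} {ξ : ℕ → WittVector p T}
    (hΔ : ∀ l, F.LRep (Δ l) (F.φ F.δ ^ n * ξ l)) : ∀ l,
    F.LRep (prodΔ Δ l) (F.φ F.δ ^ (n * l) * ∏ i ∈ Finset.range l, ξ i)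
  | 0 => fun a => by simp [prodΔ]
  | l + 1 => by
    have h : F.LRep (prodΔ Δ l * Δ l)
        (F.φ F.δ ^ (n * l) * (∏ i ∈ Finset.range l, ξ i) * (F.φ F.δ ^ n * ξ l)) :=
      Frame.Rep.mul (F := F) (M := prodΔ Δ l) (M' := Δ l) (prodΔ_rep hΔ l) (hΔ l)
    rw [Finset.prod_range_succ, Nat.mul_succ, pow_add,
      show prodΔ Δ (l + 1) = prodΔ Δ l * Δ l from rfl,
      show F.φ F.δ ^ (n * l) * F.φ F.δ ^ n * ((∏ i ∈ Finset.range l, ξ i) * ξ l) =
        F.φ F.δ ^ (n * l) * (∏ i ∈ Finset.range l, ξ i) * (F.φ F.δ ^ n * ξ l) by ring]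
    exact h

/-- The matrix of an untilt. -/
theorem exists_untilt_rep (hR : 1 ≤ R) (hK : 1 ≤ K) {t : T} (ht : t ∈ F.C 0)
    (hdiv : F.s ^ (R * (K + 1) + (d + 1) * (R - 1) + n * F.κ) ∣ F.ι t) :
    ∃ M : Matrix (Fin r) (Fin r) (PS p L d),
      (∀ i j, M i j ∈ boxIdeal (d + 1) p L R K (K + 1)) ∧
      (∀ i j, M i j ∈ zId (zOp p L d R) ^ K) ∧
      F.LRep (m := m) (untiltMat (F.δ ^ n) M)
        (F.φ F.δ ^ n * ((p : WittVector p T) - WittVector.teichmuller p t)) := by
  classical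
  obtain ⟨M, hord, hM⟩ := F.exists_rep (F.teichmuller_mem_levW ht) _
    (show WittVector.teichmuller p (F.s ^ (R * (K + 1) + (d + 1) * (R - 1) + n * F.κ)) ∣
      WittVector.map F.ι (WittVector.teichmuller p t) by
      rw [WittVector.map_teichmuller]; exact map_dvd _ hdiv)
  refine ⟨M, fun i j => ordIdeal_le_boxIdeal hR hK (ordIdeal_mono (by omega) (hord i j)),
    fun i j => ordIdeal_le_zId_pow hR (ordIdeal_mono (by rw [Nat.mul_succ]; omega) (hord i j)), ?_⟩
  have h := (F.rep_scalar (F.δ ^ n * (p : PS p L d))).sub hM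
  rw [map_mul, map_pow, map_natCast, ← mul_sub] at h
  exact h

omit [IsDomain O] [CharP O p] [PerfectRing O p] in
theorem kernel_field (U : Untilts F θ B R K u genB genM) {Φ : R2 (PS p L d) (Lat p L d m) B →+*
      WittVector p (U.S l) ⧸ tiltI (U.j l (U.t l)) n}
    (hΦ : ∀ a : Lat p L d m, Φ (inA a) = U.J l (F.latHom a))
    {Δ : Matrix (Fin r) (Fin r) (PS p L d)}
    (hΔ : F.Rep Δ (F.φ F.δ ^ n * ((p : WittVector p T) - WittVector.teichmuller p (U.t l))))
    (D : ℕ) (a : Fin r → Lat p L d m)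
    (ha : incV a ∈ sumKer Φ fun i => U.J l (WittVector.teichmuller p (F.β i))) :
    ∃ b : Fin r → PS p L d, ∀ i, (p : PS p L d) ^ n ∣
      F.δ ^ ((n + 1) * n + n * (D + 1)) * (show PS p L d from a i) - (Δ *ᵥ b) i := by
  classical
  have h1 := (F.sum_incV hΦ a).symm.trans (mem_sumKer.1 ha)
  obtain ⟨w, x, hwx⟩ := mem_tiltI.1 (U.desc l _ (Ideal.Quotient.eq_zero_iff_mem.1 h1))
  obtain ⟨b, q, hbq⟩ := F.kernel_untilt
    (F.C_le (Nat.zero_le n) le_rfl (U.t_mem l)) (U.t_ne l) hΔ n le_rfl a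
    ⟨w, x, (hwx.symm).trans (by ring)⟩
  refine ⟨F.δ ^ (n * (D + 1)) • b, fun i => ⟨F.δ ^ (n * (D + 1)) * q i, ?_⟩⟩
  rw [Matrix.mulVec_smul, Pi.smul_apply, smul_eq_mul, pow_add]
  have h2 : F.δ ^ ((n + 1) * n) * (show PS p L d from a i) =
      (Δ *ᵥ b) i + (p : PS p L d) ^ n * q i := congrFun hbq i
  linear_combination (F.δ ^ (n * (D + 1))) * h2

/-- The equation of the hypersurface is a multiple of the product of the untilt matrices. -/
theorem gfac_field (hθ : ∀ π : PS p L d,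
      F.φ (algebraMap (PS p L d) (Lat p L d m) π) = θ π) {t : ℕ → T} {D : ℕ}
    {Pr : Matrix (Fin r) (Fin r) (PS p L d)}
    (hPi : F.Rep Pr (F.φ F.δ ^ (n * D) * ∏ i ∈ Finset.range D,
      ((p : WittVector p T) - WittVector.teichmuller p (t i))))
    {g : PS p L d} {U₀ : WittVector p T} (hU₀ : U₀ ∈ F.levW 0)
    (hg : (p : WittVector p T) ^ n ∣ θ g - U₀ * ∏ l ∈ Finset.range D,
      ((p : WittVector p T) - WittVector.teichmuller p (t l)))
    (π' : PS p L d) (a : Fin r → PS p L d) :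
    ∃ b : Fin r → PS p L d, ∀ i, (p : PS p L d) ^ n ∣ F.δ ^ ((n + 1) * n + n * (D + 1)) *
      ((show PS p L d from algebraMap (PS p L d) (Lat p L d m) (g * π')) * a i) - (Pr *ᵥ b) i := by
  classical
  obtain ⟨MU, -, hMU⟩ := F.exists_rep hU₀ 0 (by rw [pow_zero, map_one]; exact one_dvd _)
  let P' : PS p L d := algebraMap (PS p L d) (Lat p L d m) π'
  let P₀ : PS p L d := algebraMap (PS p L d) (Lat p L d m) (g * π')
  have hπθ : F.φ P₀ = θ g * θ π' := by rw [show F.φ P₀ = θ (g * π') from hθ _, map_mul]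
  have hP'θ : F.φ P' = θ π' := hθ π'
  let b : Fin r → PS p L d := F.δ ^ ((n + 1) * n) • (MU *ᵥ (P' • a))
  refine ⟨b, F.dvd_of_psi (a := F.δ ^ ((n + 1) * n + n * (D + 1)) • (P₀ • a) - Pr *ᵥ b) ?_⟩
  obtain ⟨q₁, hq₁⟩ := hPi b
  obtain ⟨q₂, hq₂⟩ := hMU (P' • a)
  obtain ⟨q₃, hq₃⟩ := hg
  rw [Frame.psi_smul F, map_pow] at hq₁
  rw [Frame.psi_smul F, hP'θ] at hq₂
  refine ⟨q₁ +
    F.φ F.δ ^ ((n + 1) * n + n * (D + 1)) * θ π' * F.psi a * q₃ +
    F.φ F.δ ^ ((n + 1) * n + n * D) * (∏ i ∈ Finset.range D,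
    ((p : WittVector p T) - WittVector.teichmuller p (t i))) * q₂, ?_⟩
  rw [map_sub, Frame.psi_smul, Frame.psi_smul, hπθ, map_pow]
  simp only [pow_add, Nat.mul_succ] at *
  linear_combination hq₁ + (F.φ F.δ ^ ((n + 1) * n) * F.φ F.δ ^ n * F.φ F.δ ^ (n * D) *
    θ π' * F.psi a) * hq₃ + (F.φ F.δ ^ ((n + 1) * n) * F.φ F.δ ^ (n * D) *
    (∏ i ∈ Finset.range D, ((p : WittVector p T) - WittVector.teichmuller p (t i)))) * hq₂

omit [CharP T p] [PerfectRing T p] [CharP O p] [PerfectRing O p] [IsDomain O] [CharP L p]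
  [PerfectRing L p] in
/-- Multiplication by a generator on lattice vectors. -/
theorem mem_ker_gen {Q : Type*} [CommRing Q] {J : WittVector p T →+* Q} {ρ : B →+* Q}
    {Φ : R2 (PS p L d) (Lat p L d m) B →+* Q} (hΦ : ∀ a : Lat p L d m, Φ (inA a) = J (F.latHom a))
    (hΦB : ∀ b, Φ (inB b) = ρ b) (hJ : J ((p : WittVector p T) ^ n) = 0)
    {Γ M : Matrix (Fin r) (Fin r) (Lat p L d m)} {b : B} {x w : WittVector p T}
    (hΓ : F.LRep Γ (F.φ F.δ ^ n * x)) (hw : J x * ρ b = J w) (hM : F.LRep M (F.φ F.δ ^ n * w))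
    (a : Fin r → Lat p L d m) :
    (inB b : R2 (PS p L d) (Lat p L d m) B) • matV Γ (incV a) - incV (M *ᵥ a) ∈
      sumKer Φ fun i => J (WittVector.teichmuller p (F.β i)) := by
  refine mem_sumKer.2 ?_
  simp only [Pi.sub_apply, Pi.smul_apply, smul_eq_mul, map_sub, map_mul, sub_mul,
    Finset.sum_sub_distrib, mul_assoc, ← Finset.mul_sum]
  rw [F.sum_matV_eq hΦ hJ hΓ, F.sum_incV_mulVec hΦ hJ hM, F.sum_incV hΦ, hΦB, map_mul,
    map_mul J _ w, ← hw]
  ring

omit [CharP L p] [PerfectRing L p] [CharP T p] [PerfectRing T p] [CharP O p] [PerfectRing O p]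
  [IsDomain O] in
theorem cutIdeal_le_zId {R v n : ℕ} :
    cutIdeal (d + 1) p L n (R * v) ≤
      zId (zOp p L d R) ^ v ⊔ Ideal.span {(p : PS p L d) ^ n} := by
  refine sup_le le_sup_right ((Ideal.span_le.2 ?_).trans le_sup_left)
  rintro _ ⟨a, rfl⟩
  show (MvPowerSeries.X a : PS p L d) ^ (R * v) ∈ zId (zOp p L d R) ^ v
  rw [pow_mul]
  exact Ideal.pow_mem_pow (Ideal.subset_span (Set.mem_range_self a)) _

omit [CharP L p] [PerfectRing L p] [CharP T p] [PerfectRing T p] [CharP O p] [PerfectRing O p]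
  [IsDomain O] in
theorem vecS_sup_le {I J : Ideal (PS p L d)} {N : Submodule (PS p L d) (Fin r → PS p L d)}
    (hI : vecS I ≤ N) (hJ : vecS J ≤ N) : vecS (I ⊔ J) ≤ N := fun x hx => by
  choose a ha b hb hab using fun i => Submodule.mem_sup.1 (hx i (Set.mem_univ _))
  rw [show x = a + b from (funext hab).symm]
  exact add_mem (hI fun i _ => ha i) (hJ fun i _ => hb i)

/-- The data of a chain from a frame, untilts and a bound for the cokernel of the slack matrix. -/
theorem exists_data [IsLocalRing B] (hθ : ∀ π : PS p L d,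
      F.φ (algebraMap (PS p L d) (Lat p L d m) π) = θ π)
    (U : Untilts F θ B R K u genB genM) {Q v D : ℕ} (hR : 1 ≤ R) (hK : 1 ≤ K)
    (hQ : p ^ m = R * Q) (hv : v ≤ n * K)
    {G₀ g : PS p L d} {U₀ : WittVector p T}
    (hcok : ∀ b : B, ∃ π : PS p L d,
      algebraMap (PS p L d) B π = algebraMap (PS p L d) B G₀ * b)
    (hp : (p : B) ∈ IsLocalRing.maximalIdeal B)
    (hlen : ∀ (V : Type u) [AddCommGroup V] [Module B V] [Module (PS p L d) V]
      [IsScalarTower (PS p L d) B V], Module.length (PS p L d) V = Module.length B V)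
    (hgenB : Submodule.span (PS p L d) (Set.range genB) = ⊤)
    (hgenM : Ideal.span (Set.range genM) = IsLocalRing.maximalIdeal B)
    (hker : RingHom.ker (algebraMap (PS p L d) B) ≤ Ideal.span {g}) (hU₀ : U₀ ∈ F.levW 0)
    (hg : (p : WittVector p T) ^ n ∣ θ g - U₀ * ∏ l ∈ Finset.range D,
      ((p : WittVector p T) - WittVector.teichmuller p (U.t l)))
    (hu : u ∈ F.C 0) {oc : ℕ} (hc : F.cy.order ≤ (oc : ℕ∞)) {E : ℕ}
    (hs : r * (n * (p ^ n * (((n + 1) * n + n * (D + 1)) * oc) * (R * v) ^ d)) ≤ E)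
    (hΓE : ∀ Γ : Matrix (Fin r) (Fin r) (PS p L d),
      F.Rep Γ (F.φ F.δ ^ n * WittVector.teichmuller p u) →
      Module.length (PS p L d) ((Fin r → PS p L d) ⧸ (LinearMap.range Γ.mulVecLin ⊔
        vecS (cutIdeal (d + 1) p L n (R * v)))) ≤ (E : ℕ∞)) :
    Nonempty (Assemble.Data (PS p L d) (Lat p L d m) B p
      (fun a => algebraMap (PS p L d) B (MvPowerSeries.X a)) (algebraMap (PS p L d) B G₀)
      D Q K v (r * R ^ (d + 1)) E r mB mM) := by
  classical
  choose MT hMTbox hMTz hΔ using fun l => exists_untilt_rep (m := m) hR hK (U.t_mem l) (U.t_div l)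
  have exB : ∀ l i, ∃ M : Matrix (Fin r) (Fin r) (PS p L d),
      (∀ a b, M a b ∈ ordIdeal (Fin (d + 1)) (WittVector p L) (0 - n * F.κ)) ∧
        F.Rep M (F.φ F.δ ^ n * U.wB l i) := fun l i =>
    F.exists_rep (U.wB_mem l i) 0 (by rw [pow_zero, map_one]; exact one_dvd _)
  choose MB hMBord hMB using exB
  have exM : ∀ l i, ∃ M : Matrix (Fin r) (Fin r) (PS p L d),
      (∀ a b, M a b ∈ ordIdeal (Fin (d + 1)) (WittVector p L)
        (R * K + (d + 1) * (R - 1) + n * F.κ - n * F.κ)) ∧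
        F.Rep M (F.φ F.δ ^ n * U.wM l i) := fun l i =>
    F.exists_rep (U.wM_mem l i) _ (U.wM_div l i)
  choose MM hMMord hMM using exM
  obtain ⟨Γ, -, hΓ⟩ := F.exists_rep (F.teichmuller_mem_levW hu) 0
    (by rw [pow_zero, map_one]; exact one_dvd _)
  let Δ : ℕ → Matrix (Fin r) (Fin r) (Lat p L d m) := fun l => untiltMat (F.δ ^ n) (MT l)
  let Φ : ∀ l, R2 (PS p L d) (Lat p L d m) B →+*
      WittVector p (U.S l) ⧸ tiltI (U.j l (U.t l)) n := fun l =>
    tensorHom ((U.J l).comp F.latHom) (U.ρ l) fun π => by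
      rw [U.ρ_eq, RingHom.comp_apply, ← hθ]
      rfl
  have hΦ : ∀ l (a : Lat p L d m), Φ l (inA a) = U.J l (F.latHom a) := fun l a =>
    tensorHom_inA _ _ _ a
  have hΦB : ∀ l (b : B), Φ l (inB b) = U.ρ l b := fun l b => tensorHom_inB _ _ _ b
  have hPEq : ∀ {M M' : Matrix (Fin r) (Fin r) (Lat p L d m)} {w w' : WittVector p T},
      F.LRep M w → F.LRep M' w' → PEq p n (M * M') (M' * M) := fun h h' i j =>
    F.rep_comm h h' i j
  let S := (n + 1) * n + n * (D + 1)
  exact ⟨{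
    z := zOp p L d R
    xP := MvPowerSeries.X
    x_eq := fun a => rfl
    z_pow := fun a => zOp_pow hQ a
    hP := G₀
    h_eq := rfl
    cokilled := hcok
    p_mem := hp
    len_eq := hlen
    gensA := by
      obtain ⟨a, ha⟩ := exists_gens (p := p) (L := L) (d := d) (m := m)
      refine ⟨_, a, ha, le_of_eq ?_⟩
      rw [hQ, mul_pow]
      ring
    n := n
    le_nK := hv
    box := fun w => boxIdeal (d + 1) p L R K w
    box_anti := fun h => boxIdeal_anti h
    box_zero := boxIdeal_zero hK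
    box_mul := fun w w' => boxIdeal_mul_le hK w w'
    p_box := by
      show (p : PS p L d) ∈ boxIdeal (d + 1) p L R K K
      rw [← pow_one (p : PS p L d)]
      exact p_pow_mem_boxIdeal hK (Nat.le_of_eq (one_mul K).symm)
    zId_box := fun b => zId_pow_le_boxIdeal hR hK b
    box_le := fun w => boxIdeal_le_iSup hK w
    Ker := fun l => sumKer (Φ l) fun i => U.J l (WittVector.teichmuller p (F.β i))
    e := F.δ ^ n
    s := F.δ ^ S
    e_dvd := pow_dvd_pow F.δ
      ((Nat.le_mul_of_pos_right n (Nat.succ_pos D)).trans (Nat.le_add_left _ _))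
    Δ := Δ
    Δ_box := fun l i j => by
      show (untiltMat (F.δ ^ n) (MT l)) i j ∈ boxIdeal (d + 1) p L R K K
      refine sub_mem ?_ (boxIdeal_anti (Nat.le_succ K) (hMTbox l i j))
      rw [Matrix.smul_apply, smul_eq_mul]
      refine Ideal.mul_mem_right _ _ (Ideal.mul_mem_left _ _ ?_)
      rw [← pow_one (p : PS p L d)]
      exact p_pow_mem_boxIdeal hK (Nat.le_of_eq (one_mul K).symm)
    Δ_mod := fun l a i _ => by
      let a' : Fin r → PS p L d := a
      show (F.δ ^ n * (p : PS p L d)) * a' i - (untiltMat (F.δ ^ n) (MT l) *ᵥ a') i ∈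
        zId (zOp p L d R) ^ K
      rw [untiltMat_mulVec, sub_sub_cancel]
      show ∑ j, MT l i j * a' j ∈ zId (zOp p L d R) ^ K
      exact Ideal.sum_mem _
        fun j _ => Ideal.mul_mem_right _ _ (hMTz l i j)
    Δ_step := fun l w a ha i _ => by
      let a' : Fin r → PS p L d := a
      show (F.δ ^ n) ^ w * a' i ∈ boxIdeal (d + 1) p L R K w
      refine mem_boxIdeal_of_step hK (F.δ ^ n) (hMTbox l) (fun j => ?_) w le_rfl i
      rw [← untiltMat_mulVec]
      exact ha j (Set.mem_univ _)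
    Δ_ker := fun l a => by
      refine mem_sumKer.2 ?_
      rw [F.sum_incV_mulVec (hΦ l) (U.J_p_pow l) (hΔ l), map_mul, U.J_xi, mul_zero, zero_mul]
    p_ker := fun l y => by
      refine mem_sumKer.2 ?_
      refine Finset.sum_eq_zero fun i _ => ?_
      rw [Pi.smul_apply, smul_eq_mul, map_mul, map_pow, map_natCast, ← map_natCast (U.J l),
        ← map_pow, U.J_p_pow, zero_mul, zero_mul]
    kernel := fun l a ha => by
      obtain ⟨b, hb⟩ := kernel_field U (hΦ l) (hΔ l) D a ha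
      exact ⟨b, fun i _ => Ideal.mem_span_singleton.2 (hb i)⟩
    gfac := fun π hπ a => by
      obtain ⟨π', rfl⟩ := Ideal.mem_span_singleton.1 (hker hπ)
      obtain ⟨b, hb⟩ := gfac_field hθ (prodΔ_rep hΔ D) hU₀ hg π' a
      exact ⟨b, fun i _ => Ideal.mem_span_singleton.2 (hb i)⟩
    Δ_comm := fun l l' => hPEq (hΔ l) (hΔ l')
    Γ := Γ
    Γ_comm := fun l => hPEq hΓ (hΔ l)
    Γ_ker := fun l y hy => by
      refine mem_sumKer.2 ?_
      rw [F.sum_matV_eq (hΦ l) (U.J_p_pow l) (w := F.φ F.δ ^ n * WittVector.teichmuller p u) hΓ,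
        mem_sumKer.1 hy, mul_zero]
    genB := genB
    genB_span := hgenB
    MB := fun l i => MB l i
    MB_comm := fun l i l' => hPEq (hMB l i) (hΔ l')
    MB_eq := fun l i a => mem_ker_gen (hΦ l) (hΦB l) (U.J_p_pow l) hΓ (U.wB_eq l i) (hMB l i) a
    genM := genM
    genM_span := hgenM
    MM := fun l i => MM l i
    MM_small := fun l i a b => ordIdeal_le_zId_pow hR (ordIdeal_mono (by omega) (hMMord l i a b))
    MM_eq := fun l i a => mem_ker_gen (hΦ l) (hΦB l) (U.J_p_pow l) hΓ (U.wM_eq l i) (hMM l i) a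
    finite := by
      rw [length_lat_quot]
      exact length_quot_cut_ne_top (p := p) (F := L) (d := d) n (R * v)
        fun x hx i hi => cutIdeal_le_zId (hx i hi)
    upper := by
      rw [length_lat_quot]
      exact (length_quot_box_one (p := p) (F := L) (d := d) hR hK).le
    lower := by
      rw [length_lat_quot, length_lat_quot]
      exact (length_quot_box_add (p := p) (F := L) (d := d) hR hK v).le
    s_small := by
      rw [length_lat_quot]
      refine (length_quot_le_scalar (p := p) (F := L) (d := d) (e := F.δ ^ S)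
        (o := p ^ n * (S * oc)) (order_scalar_le hc S) n (R * v) ?_).trans
        (Nat.cast_le.2 hs)
      have h : vecS (r := r) (Ideal.span {F.δ ^ S} ⊔ cutIdeal (d + 1) p L n (R * v)) ≤
          vecS (Ideal.span {F.δ ^ S}) ⊔
            vecS (zId (zOp p L d R) ^ v ⊔ Ideal.span {(p : PS p L d) ^ n}) :=
        vecS_sup_le le_sup_left
          fun _ hx => Submodule.mem_sup_right fun i hi => cutIdeal_le_zId (hx i hi)
      exact h
    Γ_small := by
      rw [length_lat_quot]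
      have h : LinearMap.range Γ.mulVecLin ⊔ vecS (cutIdeal (d + 1) p L n (R * v)) ≤
          LinearMap.range Γ.mulVecLin ⊔ vecS (boxIdeal (d + 1) p L R K v) :=
        sup_le_sup_left (fun x hx i hi => cutIdeal_le_boxIdeal hR hK hv le_rfl (hx i hi)) _
      have h2 : Module.length (PS p L d) ((Fin r → PS p L d) ⧸ (LinearMap.range Γ.mulVecLin ⊔
          vecS (boxIdeal (d + 1) p L R K v))) ≤ (E : ℕ∞) :=
        le_trans (Module.length_le_of_surjective (Submodule.factor h)
          (Submodule.factor_surjective h)) (hΓE Γ hΓ)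
      exact h2 }⟩

end Vale.Agent.P202.Mixed.Lattice
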