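import Vale.Agent.P202.Imperfect.Base
import Vale.Agent.P202.Reduce.FlatInvariant

/-!
# P202 mixed characteristic, lattice block: cokernels of matrices and the order of the determinant

Over power series in `d + 1` variables over an infinite field, the cokernel of a square matrix cut
off at the powers `X ^ w` has length at most the order of the determinant times `(2 w) ^ d`: cut
by `d` general linear forms to a line, where the length is the order of the determinant.
-/

noncomputable section

namespace Vale.Agent.P202.Mixed.Lattice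

open IsLocalRing

universe u

section Filtration

variable {A : Type*} [CommRing A] {M : Type*} [AddCommGroup M] [Module A M]

/-- The multiples of a ring element. -/
def mulRange (A : Type*) [CommRing A] (M : Type*) [AddCommGroup M] [Module A M] (L : A) :
    Submodule A M :=
  LinearMap.range (LinearMap.lsmul A M L)

theorem mem_mulRange {L : A} {x : M} : x ∈ mulRange A M L ↔ ∃ y : M, L • y = x := Iff.rfl

theorem length_quot_anti {N N' : Submodule A M} (h : N ≤ N') :
    Module.length A (M ⧸ N') ≤ Module.length A (M ⧸ N) :=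
  Module.length_le_of_surjective (Submodule.factor h) (Submodule.factor_surjective h)

/-- Cutting by a power costs the exponent times cutting by the element. -/
theorem length_quot_pow_le (N : Submodule A M) (L : A) : ∀ n : ℕ,
    Module.length A (M ⧸ (N ⊔ mulRange A M (L ^ n))) ≤
      (n : ℕ∞) * Module.length A (M ⧸ (N ⊔ mulRange A M L))
  | 0 => by
    have h : N ⊔ mulRange A M (L ^ 0) = ⊤ :=
      eq_top_iff.2 fun x _ => Submodule.mem_sup_right ⟨x, by simp⟩
    have : Subsingleton (M ⧸ (N ⊔ mulRange A M (L ^ 0))) :=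
      Submodule.Quotient.subsingleton_iff.2 h
    rw [Module.length_eq_zero]
    exact zero_le
  | n + 1 => by
    have hle : N ⊔ mulRange A M (L ^ (n + 1)) ≤ N ⊔ mulRange A M (L ^ n) := by
      refine sup_le le_sup_left ?_
      rintro x ⟨y, rfl⟩
      exact Submodule.mem_sup_right ⟨L • y, by simp only [LinearMap.lsmul_apply, ← mul_smul, ← pow_succ]⟩
    have hlift : N ⊔ mulRange A M L ≤ LinearMap.ker
        ((N ⊔ mulRange A M (L ^ (n + 1))).mkQ.comp (LinearMap.lsmul A M (L ^ n))) := by
      refine sup_le (fun x hx => ?_) ?_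
      · rw [LinearMap.mem_ker, LinearMap.comp_apply, Submodule.mkQ_apply,
          Submodule.Quotient.mk_eq_zero]
        exact Submodule.mem_sup_left (N.smul_mem _ hx)
      · rintro x ⟨y, rfl⟩
        rw [LinearMap.mem_ker, LinearMap.comp_apply, Submodule.mkQ_apply,
          Submodule.Quotient.mk_eq_zero]
        exact Submodule.mem_sup_right ⟨y, by simp only [LinearMap.lsmul_apply, ← mul_smul, ← pow_succ]⟩
    let f := (N ⊔ mulRange A M L).liftQ _ hlift
    let g := Submodule.factor hle
    have hker : LinearMap.ker g ≤ LinearMap.range f := by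
      intro q hq
      obtain ⟨x, rfl⟩ := Submodule.Quotient.mk_surjective _ q
      have hx : x ∈ N ⊔ mulRange A M (L ^ n) := (Submodule.Quotient.mk_eq_zero _).1 hq
      obtain ⟨a, ha, b, ⟨y, rfl⟩, rfl⟩ := Submodule.mem_sup.1 hx
      refine ⟨Submodule.Quotient.mk y, ?_⟩
      rw [Submodule.liftQ_apply, LinearMap.comp_apply, Submodule.mkQ_apply, Submodule.Quotient.eq]
      refine Submodule.mem_sup_left ?_
      simpa using N.neg_mem ha
    have hlen : Module.length A (LinearMap.ker g) ≤
        Module.length A (M ⧸ (N ⊔ mulRange A M L)) :=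
      (Module.length_le_of_injective (Submodule.inclusion hker)
        (Submodule.inclusion_injective hker)).trans
          (Module.length_le_of_surjective f.rangeRestrict f.surjective_rangeRestrict)
    have he := Module.length_eq_add_of_exact (LinearMap.ker g).subtype g
      (Submodule.injective_subtype _) (Submodule.factor_surjective hle)
      (LinearMap.exact_subtype_ker_map g)
    rw [he, Nat.cast_add, Nat.cast_one, add_mul, one_mul, add_comm]
    exact add_le_add (length_quot_pow_le N L n) hlen

/-- Cutting by powers of several elements. -/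
theorem length_quot_iSup_pow_le (N : Submodule A M) {σ : Type*} [Fintype σ] (L : σ → A) (n : ℕ) :
    Module.length A (M ⧸ (N ⊔ ⨆ a, mulRange A M (L a ^ n))) ≤
      ((n ^ Fintype.card σ : ℕ) : ℕ∞) * Module.length A (M ⧸ (N ⊔ ⨆ a, mulRange A M (L a))) := by
  classical
  suffices h : ∀ S : Finset σ,
      Module.length A (M ⧸ (N ⊔ ⨆ a, mulRange A M (L a ^ (if a ∈ S then n else 1)))) ≤
        ((n ^ S.card : ℕ) : ℕ∞) * Module.length A (M ⧸ (N ⊔ ⨆ a, mulRange A M (L a))) by
    have h' := h Finset.univ
    have e : (⨆ a, mulRange A M (L a ^ (if a ∈ Finset.univ then n else 1))) =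
        ⨆ a, mulRange A M (L a ^ n) := iSup_congr fun a => by rw [if_pos (Finset.mem_univ a)]
    rwa [e, Finset.card_univ] at h'
  intro S
  induction S using Finset.induction_on with
  | empty =>
    have e : (⨆ a, mulRange A M (L a ^ (if a ∈ (∅ : Finset σ) then n else 1))) =
        ⨆ a, mulRange A M (L a) := iSup_congr fun a => by
      rw [if_neg (Finset.notMem_empty a), pow_one]
    rw [e]
    simp
  | insert i S hi ih =>
    set e : σ → ℕ := fun a => if a ∈ S then n else 1
    set N' : Submodule A M := N ⊔ ⨆ (a) (_ : a ≠ i), mulRange A M (L a ^ e a)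
    have h1 : (N ⊔ ⨆ a, mulRange A M (L a ^ (if a ∈ insert i S then n else 1))) =
        N' ⊔ mulRange A M (L i ^ n) := by
      rw [iSup_split_single _ i, if_pos (Finset.mem_insert_self _ _), sup_assoc,
        sup_comm (mulRange A M (L i ^ n))]
      congr 2
      refine iSup_congr fun a => iSup_congr fun ha => ?_
      simp only [e, Finset.mem_insert, ha, false_or]
    have h2 : (N ⊔ ⨆ a, mulRange A M (L a ^ e a)) = N' ⊔ mulRange A M (L i) := by
      rw [iSup_split_single _ i, show e i = 1 from if_neg hi, pow_one, sup_assoc,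
        sup_comm (mulRange A M (L i))]
    rw [h1, Finset.card_insert_of_notMem hi, pow_succ', Nat.cast_mul, mul_assoc]
    refine (length_quot_pow_le N' (L i) n).trans (mul_le_mul' le_rfl ?_)
    rw [← h2]
    exact ih

end Filtration

section Line

/-- Over a principal ideal domain the length of the cokernel is the order of the determinant. -/
theorem length_coker_le_ord_det {R : Type*} [CommRing R] [IsDomain R] [IsPrincipalIdealRing R]
    {r : ℕ} (G : Matrix (Fin r) (Fin r) R) (hG : G.det ≠ 0) :
    Module.length R ((Fin r → R) ⧸ LinearMap.range G.mulVecLin) ≤ Ring.ord R G.det := by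
  classical
  set N := LinearMap.range G.mulVecLin
  let b := Pi.basisFun R (Fin r)
  have hinj : Function.Injective G.mulVecLin := fun x y h => by
    rw [← sub_eq_zero]
    exact Matrix.eq_zero_of_mulVec_eq_zero hG (by
      rw [Matrix.mulVec_sub, sub_eq_zero]
      simpa using h)
  have hrank : Module.finrank R N = Module.finrank R (Fin r → R) :=
    (LinearEquiv.ofInjective G.mulVecLin hinj).finrank_eq.symm
  let a := Submodule.smithNormalFormCoeffs b hrank
  let b' := Submodule.smithNormalFormTopBasis b hrank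
  let ab := Submodule.smithNormalFormBotBasis b hrank
  let D : (Fin r → R) →ₗ[R] (Fin r → R) := b'.constr R fun i => a i • b' i
  let h : (Fin r → R) ≃ₗ[R] (Fin r → R) :=
    (LinearEquiv.ofInjective G.mulVecLin hinj).trans (ab.equiv b' (Equiv.refl _))
  have hfac : G.mulVecLin = D.comp h.toLinearMap := by
    have key : D.comp (ab.equiv b' (Equiv.refl _)).toLinearMap = N.subtype := ab.ext fun i => by
      simp only [LinearMap.comp_apply, LinearEquiv.coe_coe, Module.Basis.equiv_apply,
        Equiv.refl_apply, D, Module.Basis.constr_basis, Submodule.coe_subtype]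
      exact (Submodule.smithNormalFormBotBasis_def b hrank i).symm
    refine LinearMap.ext fun x => ?_
    exact (LinearMap.congr_fun key (LinearEquiv.ofInjective G.mulVecLin hinj x)).symm
  have hD : LinearMap.det D = ∏ i, a i := by
    rw [← LinearMap.det_toMatrix b']
    have : LinearMap.toMatrix b' b' D = Matrix.diagonal a := by
      ext i j
      rw [LinearMap.toMatrix_apply, Matrix.diagonal_apply]
      simp only [D, Module.Basis.constr_basis, map_smul, Module.Basis.repr_self, Finsupp.smul_single,
        smul_eq_mul, mul_one, Finsupp.single_apply]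
      split_ifs with h1 h2 <;> simp_all
    rw [this, Matrix.det_diagonal]
  have hdet : G.det = (∏ i, a i) * LinearMap.det h.toLinearMap := by
    rw [← hD, ← LinearMap.det_comp, ← hfac, ← LinearMap.det_toLin']
    rfl
  have ha : ∀ i, a i ≠ 0 := fun i => Submodule.smithNormalFormCoeffs_ne_zero b hrank i
  rw [(Submodule.quotientEquivPiSpan N b hrank).length_eq, Module.length_pi_of_fintype, hdet,
    Ring.ord_mul_of_isUnit_right h.isUnit_det']
  suffices hs : ∀ s : Finset (Fin r),
      ∑ i ∈ s, Ring.ord R (a i) ≤ Ring.ord R (∏ i ∈ s, a i) from hs Finset.univ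
  intro s
  induction s using Finset.induction_on with
  | empty => simp
  | insert i s hi ih =>
    rw [Finset.sum_insert hi, Finset.prod_insert hi,
      Ring.ord_mul R (mem_nonZeroDivisors_of_ne_zero (Finset.prod_ne_zero_iff.2 fun j _ => ha j))]
    exact add_le_add le_rfl ih

/-- Over power series in one variable over a field, the order of an element is at most the index
of any of its nonzero coefficients. -/
theorem ord_powerSeries_le {k : Type*} [Field k] {f : PowerSeries k} {o : ℕ}
    (h : PowerSeries.coeff o f ≠ 0) : Ring.ord (PowerSeries k) f ≤ (o : ℕ∞) := by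
  have hf : f ≠ 0 := fun h0 => h (by rw [h0, map_zero])
  have hXirr : Irreducible (PowerSeries.X : PowerSeries k) := PowerSeries.X_irreducible
  obtain ⟨n, hn⟩ := ENat.ne_top_iff_exists.1 (PowerSeries.order_finite_iff_ne_zero.2 hf).ne
  have hle : n ≤ o := by
    have := PowerSeries.order_le o h
    rw [← hn] at this
    exact_mod_cast this
  obtain ⟨q, hq⟩ := PowerSeries.X_pow_order_dvd (φ := f)
  rw [← hn, ENat.toNat_natCast] at hq
  have hqu : IsUnit q := by
    rw [PowerSeries.isUnit_iff_constantCoeff, isUnit_iff_ne_zero]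
    intro h0
    refine PowerSeries.coeff_order hf ?_
    rw [← hn, ENat.toNat_natCast]
    conv_lhs => rw [hq]
    rw [PowerSeries.coeff_X_pow_mul', if_pos le_rfl, Nat.sub_self,
      PowerSeries.coeff_zero_eq_constantCoeff_apply, h0]
  rw [hq, Ring.ord_mul_of_isUnit_right hqu,
    Ring.ord_pow (mem_nonZeroDivisors_of_ne_zero PowerSeries.X_ne_zero),
    Ring.ord_of_irreducible hXirr, nsmul_one]
  exact_mod_cast hle

end Line

section Cut

open MvPowerSeries

variable {k : Type u} [Field k] [Infinite k] {d : ℕ}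

/-- A direction along which the determinant keeps its order. -/
theorem exists_direction {F : MvPowerSeries (Fin (d + 1)) k} {o : ℕ} (hF : F.order ≤ (o : ℕ∞)) :
    ∃ (o' : ℕ) (c : Fin (d + 1) → k), o' ≤ o ∧ c 0 = 1 ∧
      (∀ t : Fin (d + 1) →₀ ℕ, t.degree < o' → coeff t F = 0) ∧
      MvPolynomial.eval c (truncTotal (o' + 1) F) ≠ 0 := by
  classical
  obtain ⟨o', ho'⟩ := ENat.ne_top_iff_exists.1
    (ne_top_of_le_ne_top (ENat.natCast_ne_top o) hF)
  have hle : o' ≤ o := by rw [← ho'] at hF; exact_mod_cast hF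
  have hlow : ∀ t : Fin (d + 1) →₀ ℕ, t.degree < o' → coeff t F = 0 := fun t ht =>
    coeff_of_lt_order (by rw [← ho']; exact_mod_cast ht)
  have hF0 : F ≠ 0 := fun h => by
    rw [h, order_zero] at ho'
    exact ENat.natCast_ne_top o' ho'
  obtain ⟨t₀, ht₀, hdeg⟩ := exists_coeff_ne_zero_and_order
    (f := F) (by rw [← ho']; simp)
  rw [← ho', Nat.cast_inj] at hdeg
  set P := truncTotal (o' + 1) F with hP
  have hP0 : P ≠ 0 := fun h => by
    have h1 := congrArg (MvPolynomial.coeff t₀) h
    rw [hP, coeff_truncTotal _ (by omega), MvPolynomial.coeff_zero] at h1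
    exact ht₀ h1
  have hhom : ∀ t ∈ P.support, t.degree = o' := fun t ht => by
    have h1 := MvPolynomial.mem_support_iff.1 ht
    rw [hP, coeff_truncTotal_eq_ite] at h1
    split_ifs at h1 with h2
    · by_contra hne
      exact h1 (hlow t (by omega))
    · exact absurd rfl h1
  obtain ⟨z, hz⟩ : ∃ z, MvPolynomial.eval z (P * MvPolynomial.X 0) ≠ 0 := by
    by_contra hall
    push Not at hall
    exact mul_ne_zero hP0 (MvPolynomial.X_ne_zero 0)
      (MvPolynomial.funext fun z => by rw [hall z, map_zero])
  rw [map_mul, MvPolynomial.eval_X, mul_ne_zero_iff] at hz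
  refine ⟨o', fun a => (z 0)⁻¹ * z a, hle, inv_mul_cancel₀ hz.2, hlow, ?_⟩
  have he : MvPolynomial.eval (fun a => (z 0)⁻¹ * z a) P =
      (z 0)⁻¹ ^ o' * MvPolynomial.eval z P := by
    rw [MvPolynomial.eval_eq, MvPolynomial.eval_eq, Finset.mul_sum]
    refine Finset.sum_congr rfl fun t ht => ?_
    simp only [mul_pow, Finset.prod_mul_distrib, Finset.prod_pow_eq_pow_sum, ← Finsupp.degree_apply,
      hhom t ht]
    ring
  rw [he]
  exact mul_ne_zero (pow_ne_zero _ (inv_ne_zero hz.2)) hz.1

omit [Infinite k] in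
theorem coeff_line {F : MvPowerSeries (Fin (d + 1)) k} {o' : ℕ} {c : Fin (d + 1) → k}
    (hlow : ∀ t : Fin (d + 1) →₀ ℕ, t.degree < o' → coeff t F = 0)
    (φ : MvPowerSeries (Fin (d + 1)) k →+* PowerSeries k)
    (hφ : ∀ n F, φ F - MvPolynomial.eval₂Hom PowerSeries.C
      (fun a => PowerSeries.C (c a) * PowerSeries.X) (truncTotal n F) ∈
        maximalIdeal (PowerSeries k) ^ n) :
    PowerSeries.coeff o' (φ F) = MvPolynomial.eval c (truncTotal (o' + 1) F) := by
  classical
  have h := hφ (o' + 1) F
  rw [PowerSeries.maximalIdeal_eq_span_X, Ideal.span_singleton_pow, Ideal.mem_span_singleton,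
    PowerSeries.X_pow_dvd_iff] at h
  have h' := h o' (Nat.lt_succ_self o')
  rw [map_sub, sub_eq_zero] at h'
  rw [h']
  have he : MvPolynomial.eval₂Hom PowerSeries.C (fun a => PowerSeries.C (c a) * PowerSeries.X)
      (truncTotal (o' + 1) F) =
      PowerSeries.C (MvPolynomial.eval c (truncTotal (o' + 1) F)) * PowerSeries.X ^ o' := by
    rw [MvPolynomial.coe_eval₂Hom, MvPolynomial.eval₂_eq, MvPolynomial.eval_eq, map_sum,
      Finset.sum_mul]
    refine Finset.sum_congr rfl fun t ht => ?_
    have hd : t.degree = o' := by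
      have h1 := MvPolynomial.mem_support_iff.1 ht
      rw [coeff_truncTotal_eq_ite] at h1
      split_ifs at h1 with h2
      · by_contra hne
        exact h1 (hlow t (by omega))
      · exact absurd rfl h1
    simp only [mul_pow, Finset.prod_mul_distrib, Finset.prod_pow_eq_pow_sum, map_mul, map_prod,
      map_pow, ← Finsupp.degree_apply, hd]
    ring
  rw [he, PowerSeries.coeff_C_mul, PowerSeries.coeff_X_pow_self, mul_one]

omit [Infinite k] in
theorem line_surjective {c : Fin (d + 1) → k} (hc0 : c 0 = 1)
    [IsAdicComplete (maximalIdeal (PowerSeries k)) (PowerSeries k)]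
    (φ : MvPowerSeries (Fin (d + 1)) k →+* PowerSeries k)
    (hφC : ∀ a, φ (MvPowerSeries.C a) = PowerSeries.C a)
    (hφX : ∀ a, φ (X a) = PowerSeries.C (c a) * PowerSeries.X)
    (hxm : ∀ a, PowerSeries.C (c a) * PowerSeries.X ∈ maximalIdeal (PowerSeries k)) :
    Function.Surjective φ := by
  refine surjective_powerSeriesHom φ (fun f => ⟨PowerSeries.constantCoeff f, ?_⟩) ?_
  · rw [hφC, PowerSeries.maximalIdeal_eq_span_X, Ideal.mem_span_singleton, PowerSeries.X_dvd_iff]
    simp
  · refine le_antisymm ?_ ?_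
    · rw [PowerSeries.maximalIdeal_eq_span_X, Ideal.span_singleton_le_iff_mem]
      exact Ideal.subset_span ⟨0, by simp [hφX, hc0]⟩
    · rw [Ideal.span_le]
      rintro _ ⟨a, rfl⟩
      show φ (X a) ∈ _
      rw [hφX]
      exact hxm a

omit [Infinite k] in
theorem mem_of_line_eq_zero {c : Fin (d + 1) → k} (hc0 : c 0 = 1)
    (φ : MvPowerSeries (Fin (d + 1)) k →+* PowerSeries k)
    (hφC : ∀ a, φ (MvPowerSeries.C a) = PowerSeries.C a)
    (hφX : ∀ a, φ (X a) = PowerSeries.C (c a) * PowerSeries.X) :
    ∀ F, φ F = 0 → F ∈ Ideal.span (Set.range fun a : Fin d =>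
      (X a.succ : MvPowerSeries (Fin (d + 1)) k) - MvPowerSeries.C (c a.succ) * X 0) := by
  let A := MvPowerSeries (Fin (d + 1)) k
  let L : Fin d → A := fun a => X a.succ - MvPowerSeries.C (c a.succ) * X 0
  let J : Ideal A := Ideal.span (Set.range L)
  have hLm : J ≤ maximalIdeal A := by
    rw [Ideal.span_le]
    rintro _ ⟨a, rfl⟩
    rw [maximalIdeal_mvPowerSeries]
    exact sub_mem (Ideal.subset_span ⟨_, rfl⟩) (Ideal.mul_mem_left _ _ (Ideal.subset_span ⟨_, rfl⟩))
  have : Nontrivial (A ⧸ J) := Ideal.Quotient.nontrivial_iff.2 fun h =>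
    (maximalIdeal.isMaximal A).ne_top (top_le_iff.1 (h ▸ hLm))
  have : IsLocalRing (A ⧸ J) := .of_surjective' _ Ideal.Quotient.mk_surjective
  have : IsLocalHom (algebraMap A (A ⧸ J)) := .of_surjective _ Ideal.Quotient.mk_surjective
  have : IsAdicComplete (maximalIdeal A) A := by rw [maximalIdeal_mvPowerSeries]; infer_instance
  have : IsAdicComplete (maximalIdeal (A ⧸ J)) (A ⧸ J) :=
    isAdicComplete_maximalIdeal_of_finite A (A ⧸ J)
  have hmk : ∀ a, Ideal.Quotient.mk J (X a : A) ∈ maximalIdeal (A ⧸ J) := fun a => by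
    refine map_nonunit (algebraMap A (A ⧸ J)) _ ?_
    rw [maximalIdeal_mvPowerSeries]
    exact Ideal.subset_span ⟨a, rfl⟩
  obtain ⟨ψ, hψC, hψX, -⟩ := exists_evalHom (R := A ⧸ J) (k := k) (ι := Unit)
    ((Ideal.Quotient.mk J).comp MvPowerSeries.C) (fun _ => Ideal.Quotient.mk J (X 0)) fun _ => hmk 0
  have hcomp : (ψ : PowerSeries k →+* A ⧸ J).comp φ = Ideal.Quotient.mk J := by
    refine Imperfect.ringHom_ext_powerSeries (fun a => ?_) (fun a => ?_) fun a => ?_
    · rw [RingHom.comp_apply, hφC]
      exact hψC a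
    · rw [RingHom.comp_apply, hφX, map_mul]
      rw [show ψ (PowerSeries.C (c a)) = _ from hψC (c a),
        show ψ (PowerSeries.X : PowerSeries k) = _ from hψX ()]
      rw [RingHom.comp_apply, ← map_mul, Ideal.Quotient.eq]
      induction a using Fin.cases with
      | zero => simp [hc0]
      | succ a =>
        rw [← neg_sub]
        exact neg_mem (Ideal.subset_span ⟨a, rfl⟩)
    · rw [RingHom.comp_apply, hφX, map_mul]
      rw [show ψ (PowerSeries.X : PowerSeries k) = _ from hψX ()]
      exact Ideal.mul_mem_left _ _ (hmk 0)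
  intro F hF
  rw [← Ideal.Quotient.eq_zero_iff_mem, ← hcomp, RingHom.comp_apply, hF, map_zero]

theorem length_coker_le {r : ℕ} (G : Matrix (Fin r) (Fin r) (MvPowerSeries (Fin (d + 1)) k))
    (_hG : G.det ≠ 0) {o : ℕ} (ho : G.det.order ≤ (o : ℕ∞)) (w : ℕ) :
    Module.length (MvPowerSeries (Fin (d + 1)) k)
      ((Fin r → MvPowerSeries (Fin (d + 1)) k) ⧸
        (LinearMap.range G.mulVecLin ⊔ Submodule.pi Set.univ fun _ : Fin r =>
          Ideal.span (Set.range fun a => (X a : MvPowerSeries (Fin (d + 1)) k) ^ w))) ≤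
      ((o * (2 * w) ^ d : ℕ) : ℕ∞) := by
  classical
  obtain ⟨o', c, ho', hc0, hlow, hc⟩ := exists_direction ho
  let A := MvPowerSeries (Fin (d + 1)) k
  have : IsAdicComplete (maximalIdeal (PowerSeries k)) (PowerSeries k) := by
    rw [PowerSeries.maximalIdeal_eq_span_X]; infer_instance
  have hxm : ∀ a, PowerSeries.C (c a) * PowerSeries.X ∈ maximalIdeal (PowerSeries k) := fun a => by
    rw [PowerSeries.maximalIdeal_eq_span_X]
    exact Ideal.mul_mem_left _ _ (Ideal.mem_span_singleton_self _)
  obtain ⟨φ, hφC, hφX, hφ⟩ := exists_evalHom (R := PowerSeries k) (k := k) (ι := Fin (d + 1))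
    PowerSeries.C (fun a => PowerSeries.C (c a) * PowerSeries.X) hxm
  have hdet : PowerSeries.coeff o' (φ G.det) ≠ 0 := by
    rw [coeff_line hlow φ hφ]
    exact hc
  let L : Fin d → A := fun a => X a.succ - MvPowerSeries.C (c a.succ) * X 0
  let J : Ideal A := Ideal.span (Set.range L)
  have hkerJ : ∀ F, φ F = 0 → F ∈ J := mem_of_line_eq_zero hc0 φ hφC hφX
  have hφs : Function.Surjective φ := line_surjective hc0 φ hφC hφX hxm
  algebraize [φ]
  let N : Submodule A (Fin r → A) := LinearMap.range G.mulVecLin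
  let Gt : Matrix (Fin r) (Fin r) (PowerSeries k) := G.map φ
  let Ψ : (Fin r → A) →ₗ[A] (Fin r → PowerSeries k) :=
    (Algebra.linearMap A (PowerSeries k)).compLeft (Fin r)
  have hΨ : ∀ x i, Ψ x i = φ (x i) := fun x i => rfl
  have hGt : ∀ v, Ψ (G.mulVecLin v) = Gt.mulVecLin (Ψ v) := fun v => funext fun i => by
    simp [hΨ, Gt, Matrix.mulVec, dotProduct, map_sum, map_mul]
  let Nt : Submodule A (Fin r → PowerSeries k) :=
    (LinearMap.range Gt.mulVecLin).restrictScalars A
  have hker : LinearMap.ker (Nt.mkQ.comp Ψ) ≤ N ⊔ ⨆ a, mulRange A (Fin r → A) (L a) := by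
    intro x hx
    rw [LinearMap.mem_ker, LinearMap.comp_apply, Submodule.mkQ_apply,
      Submodule.Quotient.mk_eq_zero, Submodule.restrictScalars_mem] at hx
    obtain ⟨v, hv⟩ := hx
    choose u hu using fun i => hφs (v i)
    have hu' : Ψ u = v := funext hu
    rw [← hu', ← hGt] at hv
    have h0 : ∀ i, (x - G.mulVecLin u) i ∈ J := fun i => hkerJ _ (by
      have h := congrFun hv i
      rw [hΨ, hΨ] at h
      rw [Pi.sub_apply, map_sub, h, sub_self])
    choose q hq using fun i => Ideal.mem_span_range_iff_exists_fun.1 (h0 i)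
    refine Submodule.mem_sup.2 ⟨G.mulVecLin u, ⟨u, rfl⟩, ∑ a, L a • (fun i => q i a), ?_, ?_⟩
    · exact Submodule.sum_mem _ fun a _ => Submodule.mem_iSup_of_mem a ⟨_, rfl⟩
    · funext i
      have := hq i
      simp only [Pi.add_apply, Finset.sum_apply, Pi.smul_apply, smul_eq_mul]
      simp only [Pi.sub_apply] at this
      rw [show ∑ a, L a * q i a = ∑ a, q i a * L a from
        Finset.sum_congr rfl fun a _ => mul_comm _ _, this, add_sub_cancel]
  have hline : Module.length A ((Fin r → A) ⧸ (N ⊔ ⨆ a, mulRange A (Fin r → A) (L a))) ≤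
      (o : ℕ∞) := by
    refine (length_quot_anti hker).trans ?_
    rw [(LinearMap.quotKerEquivRange (Nt.mkQ.comp Ψ)).length_eq]
    refine (Module.length_le_of_injective _ (Submodule.injective_subtype _)).trans ?_
    rw [(Submodule.Quotient.restrictScalarsEquiv A (LinearMap.range Gt.mulVecLin)).length_eq,
      Module.length_eq_of_surjective (R := PowerSeries k) hφs]
    have hd : Gt.det = φ G.det := (RingHom.map_det φ G).symm
    refine (length_coker_le_ord_det Gt fun h => hdet (by rw [← hd, h, map_zero])).trans ?_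
    rw [hd]
    exact (ord_powerSeries_le hdet).trans (Nat.cast_le.2 ho')
  have hbox : N ⊔ ⨆ a, mulRange A (Fin r → A) (L a ^ (2 * w)) ≤
      LinearMap.range G.mulVecLin ⊔ Submodule.pi Set.univ fun _ : Fin r =>
        Ideal.span (Set.range fun a => (X a : A) ^ w) := by
    refine sup_le_sup le_rfl (iSup_le fun a => ?_)
    rintro _ ⟨y, rfl⟩ i _
    show L a ^ (2 * w) * y i ∈ _
    refine Ideal.mul_mem_right _ _ ?_
    simp only [L]
    rw [sub_eq_add_neg]
    refine Ideal.add_pow_mem_of_pow_mem_of_le _ (m := w) (n := w) (Ideal.subset_span ⟨_, rfl⟩) ?_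
      (by omega)
    rw [neg_pow, mul_pow]
    exact Ideal.mul_mem_left _ _ (Ideal.mul_mem_left _ _ (Ideal.subset_span ⟨0, rfl⟩))
  refine (length_quot_anti hbox).trans ((length_quot_iSup_pow_le N L (2 * w)).trans ?_)
  rw [Fintype.card_fin, Nat.cast_mul, mul_comm (o : ℕ∞)]
  exact mul_le_mul' le_rfl hline

end Cut

end Vale.Agent.P202.Mixed.Lattice
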