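import Vale.Agent.P202.Mixed.Lattice.Span

/-!
# P202 mixed characteristic, lattice block: matrices of Witt vectors and the kernel of an untilt
-/

noncomputable section

namespace Vale.Agent.P202.Mixed.Lattice

open MvPowerSeries Finsupp Matrix

namespace Frame

variable {p : ℕ} [Fact p.Prime] {σ : Type*} [Finite σ] {k : Type*} [CommRing k]
  {T : Type*} [CommRing T] {O : Type*} [CommRing O] {μ : Type*} [Fintype μ] {n : ℕ}
  (F : Frame p σ k T O μ n)

/-- The matrix `M` represents multiplication by `w` modulo `p ^ n`. -/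
def Rep (M : Matrix μ μ (MvPowerSeries σ (WittVector p k))) (w : WittVector p T) : Prop :=
  ∀ a : μ → MvPowerSeries σ (WittVector p k),
    (p : WittVector p T) ^ n ∣ w * F.psi a - F.psi (M *ᵥ a)

variable {F}

theorem Rep.sub {M M' : Matrix μ μ (MvPowerSeries σ (WittVector p k))} {w w' : WittVector p T}
    (h : F.Rep M w) (h' : F.Rep M' w') : F.Rep (M - M') (w - w') := fun a => by
  have := dvd_sub (h a) (h' a)
  rw [Matrix.sub_mulVec, map_sub]
  rwa [sub_sub_sub_comm, ← sub_mul] at this

theorem Rep.add {M M' : Matrix μ μ (MvPowerSeries σ (WittVector p k))} {w w' : WittVector p T}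
    (h : F.Rep M w) (h' : F.Rep M' w') : F.Rep (M + M') (w + w') := fun a => by
  have := dvd_add (h a) (h' a)
  rw [Matrix.add_mulVec, map_add]
  rwa [sub_add_sub_comm, ← add_mul] at this

theorem Rep.mul {M M' : Matrix μ μ (MvPowerSeries σ (WittVector p k))} {w w' : WittVector p T}
    (h : F.Rep M w) (h' : F.Rep M' w') : F.Rep (M * M') (w * w') := fun a => by
  have := dvd_add ((h' a).mul_left w) (h (M' *ᵥ a))
  rw [← Matrix.mulVec_mulVec]
  refine dvd_trans this (dvd_of_eq ?_)
  ring

variable (F)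

theorem rep_scalar [DecidableEq μ] (c : MvPowerSeries σ (WittVector p k)) :
    F.Rep (c • (1 : Matrix μ μ (MvPowerSeries σ (WittVector p k)))) (F.φ c) := fun a => by
  rw [Matrix.smul_mulVec, Matrix.one_mulVec, psi_smul, sub_self]
  exact dvd_zero _

variable [CharP T p] [PerfectRing T p] [CharP k p] [PerfectRing k p]

/-- A representing matrix is unique modulo `p ^ n`. -/
theorem rep_unique [DecidableEq μ] {M M' : Matrix μ μ (MvPowerSeries σ (WittVector p k))}
    {w : WittVector p T} (h : F.Rep M w) (h' : F.Rep M' w) (i j : μ) :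
    (p : MvPowerSeries σ (WittVector p k)) ^ n ∣ M i j - M' i j := by
  have := h.sub h' (Pi.single j 1)
  rw [sub_self, zero_mul, zero_sub, dvd_neg] at this
  have h2 := F.dvd_of_psi this i
  rwa [Matrix.mulVec_single_one] at h2

/-- Representing matrices commute modulo `p ^ n`. -/
theorem rep_comm [DecidableEq μ] {M M' : Matrix μ μ (MvPowerSeries σ (WittVector p k))}
    {w w' : WittVector p T} (h : F.Rep M w) (h' : F.Rep M' w') (i j : μ) :
    (p : MvPowerSeries σ (WittVector p k)) ^ n ∣ (M * M') i j - (M' * M) i j :=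
  F.rep_unique (h.mul h') (mul_comm w' w ▸ h'.mul h) i j

variable [IsDomain k] [CharP O p] [PerfectRing O p] [IsDomain O]

/-- **The matrix of a level-zero Witt vector**, scaled by `δ ^ n`, with control of orders. -/
theorem exists_rep [DecidableEq μ] {z : WittVector p T} (hz : z ∈ F.levW 0) (m : ℕ)
    (hm : WittVector.teichmuller p (F.s ^ m) ∣ WittVector.map F.ι z) :
    ∃ M : Matrix μ μ (MvPowerSeries σ (WittVector p k)),
      (∀ i j, M i j ∈ ordIdeal σ (WittVector p k) (m - n * F.κ)) ∧
        F.Rep M (F.φ F.δ ^ n * z) := by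
  have hj : ∀ j, ∃ a : μ → MvPowerSeries σ (WittVector p k),
      (∀ i, a i ∈ ordIdeal σ (WittVector p k) (m - n * F.κ)) ∧ (p : WittVector p T) ^ n ∣
        F.φ F.δ ^ n * (z * WittVector.teichmuller p (F.β j)) - F.psi a := fun j =>
    F.expand_zero (mul_mem hz (F.teichmuller_mem_levW (F.β_mem j))) m
      (by rw [map_mul]; exact hm.mul_right _)
  choose a haord ha using hj
  refine ⟨Matrix.of fun i j => a j i, fun i j => haord j i, fun x => ?_⟩
  have h1 : (Matrix.of fun i j => a j i) *ᵥ x = ∑ j, x j • a j := by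
    funext i
    simp [Matrix.mulVec, dotProduct, mul_comm]
  have h2 : F.φ F.δ ^ n * z * F.psi x - F.psi (∑ j, x j • a j) =
      ∑ j, F.φ (x j) * (F.φ F.δ ^ n * (z * WittVector.teichmuller p (F.β j)) - F.psi (a j)) := by
    rw [map_sum]
    simp only [psi_smul, mul_sub, Finset.sum_sub_distrib]
    rw [psi_apply, Finset.mul_sum]
    congr 1
    exact Finset.sum_congr rfl fun j _ => by ring
  rw [h1, h2]
  exact Finset.dvd_sum fun j _ => (ha j).mul_left _

omit [IsDomain k] [CharP O p] [PerfectRing O p] [IsDomain O] in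
/-- **The kernel of `p - [t]`**: modulo `p ^ r` it is the image of a matrix representing
`δ ^ n (p - [t])`, up to a power of `δ`. -/
theorem kernel_untilt {t : T} (ht : t ∈ F.C n) (ht0 : t ≠ 0)
    {Δ : Matrix μ μ (MvPowerSeries σ (WittVector p k))}
    (hΔ : F.Rep Δ (F.φ F.δ ^ n * ((p : WittVector p T) - WittVector.teichmuller p t))) :
    ∀ r, r ≤ n → ∀ a : μ → MvPowerSeries σ (WittVector p k),
      (∃ w u, F.psi a = ((p : WittVector p T) - WittVector.teichmuller p t) * w +
        (p : WittVector p T) ^ r * u) →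
      ∃ b e : μ → MvPowerSeries σ (WittVector p k),
        F.δ ^ ((n + 1) * r) • a = Δ *ᵥ b + (p : MvPowerSeries σ (WittVector p k)) ^ r • e := by
  intro r
  induction r with
  | zero => exact fun _ a _ => ⟨0, a, by simp⟩
  | succ r ih =>
    intro hr a ⟨w, u, hwu⟩
    set ξ := (p : WittVector p T) - WittVector.teichmuller p t with hξ
    set c : T := F.emb (F.cy ^ p ^ n) with hc
    have hξ0 : ξ.coeff 0 = -t := by
      rw [← WittVector.constantCoeff_apply, hξ, map_sub, map_natCast, CharP.cast_eq_zero,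
        WittVector.constantCoeff_apply, WittVector.teichmuller_coeff_zero, zero_sub]
    have ha0 : (F.psi a).coeff 0 = -t * w.coeff 0 := by
      rw [← WittVector.constantCoeff_apply, hwu, map_add, map_mul, map_mul, map_pow, map_natCast,
        CharP.cast_eq_zero, zero_pow (Nat.succ_ne_zero r), zero_mul, add_zero,
        WittVector.constantCoeff_apply, WittVector.constantCoeff_apply, hξ0]
    have hmem : (F.psi a).coeff 0 ∈ F.C n := by
      rw [psi_coeff_zero]
      refine sum_mem fun j _ => mul_mem ?_ (F.C_le (Nat.zero_le n) le_rfl (F.β_mem j))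
      have := F.emb_mem n le_rfl (MvPowerSeries.map WittVector.constantCoeff (a j))
      simpa using this
    have hw0 : w.coeff 0 ∈ F.C n := by
      refine F.saturated t ht ht0 _ ?_
      rw [ha0, neg_mul, neg_mem_iff] at hmem
      rwa [mul_comm]
    obtain ⟨g, hg, -⟩ := F.coords n le_rfl _ hw0
    simp only [Nat.sub_self, pow_zero, pow_one] at hg
    set b₀ : μ → MvPowerSeries σ (WittVector p k) := fun j => liftPS p (g j) with hb₀
    have hb0 : (F.psi b₀).coeff 0 = c * w.coeff 0 := by
      rw [psi_coeff_zero, hc, hg]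
      simp [hb₀, map_liftPS]
    obtain ⟨q, hq⟩ := hΔ b₀
    have hδ0 : (F.φ F.δ).coeff 0 = c := F.φ_δ_coeff_zero
    have hq' : F.psi (Δ *ᵥ b₀) =
        F.φ F.δ ^ n * ξ * F.psi b₀ - (p : WittVector p T) ^ n * q := by rw [← hq]; ring
    have hn0 : 0 < n := by omega
    have h0 : (F.psi (F.δ ^ (n + 1) • a - Δ *ᵥ b₀)).coeff 0 = 0 := by
      rw [← WittVector.constantCoeff_apply, map_sub, psi_smul, hq']
      simp only [map_sub, map_mul, map_pow, map_natCast, CharP.cast_eq_zero, zero_pow hn0.ne',
        zero_mul, sub_zero, WittVector.constantCoeff_apply, hδ0, hξ0, hb0, ha0]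
      ring
    obtain ⟨a₁, ha₁⟩ := F.eq_p_smul_of_coeff_zero h0
    have hX : (F.φ F.δ * w - F.psi b₀).coeff 0 = 0 := by
      rw [← WittVector.constantCoeff_apply, map_sub, map_mul]
      simp only [WittVector.constantCoeff_apply, hδ0, hb0, sub_self]
    obtain ⟨x, hx⟩ := (dvd_iff_coeff_zero _).2 hX
    have h1 : F.psi a₁ = ξ * (F.φ F.δ ^ n * x) + (p : WittVector p T) ^ r *
        (F.φ F.δ ^ (n + 1) * u + (p : WittVector p T) ^ (n - (r + 1)) * q) := by
      refine p_cancel ?_
      have h2 := congrArg F.psi ha₁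
      rw [map_sub, psi_smul, psi_smul, map_natCast, hq', hwu] at h2
      rw [← h2]
      have h3 : (p : WittVector p T) ^ n =
          (p : WittVector p T) * ((p : WittVector p T) ^ r * (p : WittVector p T) ^ (n - (r + 1))) := by
        rw [← mul_assoc, ← pow_succ', ← pow_add, Nat.add_sub_cancel' hr]
      rw [map_pow]
      linear_combination (F.φ F.δ ^ n * ξ) * hx + q * h3
    obtain ⟨b₁, e, he⟩ := ih (by omega) a₁ ⟨_, _, h1⟩
    refine ⟨F.δ ^ ((n + 1) * r) • b₀ + (p : MvPowerSeries σ (WittVector p k)) • b₁, e, ?_⟩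
    rw [Matrix.mulVec_add, Matrix.mulVec_smul, Matrix.mulVec_smul, Nat.mul_succ, pow_add,
      mul_smul, sub_eq_iff_eq_add.1 ha₁, smul_add, smul_comm (F.δ ^ ((n + 1) * r)), he, smul_add,
      pow_succ', mul_smul]
    abel

end Frame

end Vale.Agent.P202.Mixed.Lattice
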