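import Vale.Agent.P202.Mixed.Field.Defs
import Vale.Agent.P202.Mixed.Lattice.Matrix

/-!
# P202 mixed characteristic, lattice block: the frame of a finite separable level

From a level `Lv` over `k[[X]]`, its `p ^ e`-th roots form a frame over `k[[Y]]` with
`Y_a = X_a ^ (1 / p ^ (e + n))`, without loss of order.
-/

noncomputable section

namespace Vale.Agent.P202.Mixed.Lattice

open MvPowerSeries Finsupp

universe u

variable (p : ℕ) [Fact p.Prime] (k : Type u) [_root_.Field k] [CharP k p] (d : ℕ)

open Field in
/-- The elements of the algebraic closure nonnegative at every valuation extending the order. -/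
def ordRing : Subring (Field.Kbar k d) where
  carrier := {x | ∀ w : OrdVal k d, 0 ≤ w.v x}
  mul_mem' {x y} hx hy w := by
    rw [AddValuation.map_mul]
    exact add_nonneg (hx w) (hy w)
  one_mem' w := by rw [AddValuation.map_one]
  add_mem' {x y} hx hy w := le_trans (le_min (hx w) (hy w)) (AddValuation.map_add w.v x y)
  zero_mem' w := by rw [AddValuation.map_zero]; exact le_top
  neg_mem' {x} hx w := by rw [AddValuation.map_neg]; exact hx w

theorem nonneg_of_pow {x : Field.Kbar k d} {N : ℕ} (hN : 0 < N) (w : Field.OrdVal k d)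
    (h : 0 ≤ w.v (x ^ N)) : 0 ≤ w.v x := by
  rw [AddValuation.map_pow] at h
  by_contra hx
  rw [not_le] at hx
  obtain ⟨r, hr⟩ := WithTop.ne_top_iff_exists.1 hx.ne_top
  rw [← hr] at h hx
  rw [← WithTop.coe_nsmul, WithTop.coe_nonneg, nsmul_eq_mul] at h
  rw [← WithTop.coe_zero, WithTop.coe_lt_coe] at hx
  have : (0 : ℝ) < N := by exact_mod_cast hN
  nlinarith

instance : CharP (Field.Kbar k d) p :=
  charP_of_injective_ringHom (Field.algebraMap_kbar_injective k d) p

instance : CharP (ordRing k d) p := CharP.subring (Field.Kbar k d) p _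

instance : ExpChar (ordRing k d) p := .prime Fact.out

instance : PerfectRing (ordRing k d) p := .ofSurjective _ p fun a => by
  obtain ⟨b, hb⟩ := IsAlgClosed.exists_pow_nat_eq (a : Field.Kbar k d) (Fact.out : p.Prime).pos
  exact ⟨⟨b, fun w => nonneg_of_pow k d (Fact.out : p.Prime).pos w (by rw [hb]; exact a.2 w)⟩,
    Subtype.ext (by simpa [frobenius_def] using hb)⟩

/-- The inclusion of `T0`. -/
def toOrdRing : Field.T0 k d →+* ordRing k d :=
  ((integralClosure (Field.Ser k d) (Field.Kbar k d)).val.toRingHom).codRestrict (ordRing k d)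
    fun a w => w.nonneg a

theorem toOrdRing_coe (a : Field.T0 k d) : (toOrdRing k d a : Field.Kbar k d) = a := rfl

theorem Field.psiRoot_injective (m : ℕ) : Function.Injective (Field.psiRoot p k d m) := by
  intro f g h
  have := congrArg (fun x => x ^ p ^ m) h
  simp only [Field.psiRoot_pow] at this
  have h2 := Field.algebraMap_t0_injective k d this
  ext α
  exact (iterateFrobenius_inj k p m) (by
    simpa only [MvPowerSeries.coeff_map] using congrArg (MvPowerSeries.coeff α) h2)

variable [PerfectRing k p]

/-- Undoing the twist of the coefficients. -/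
def twist (m : ℕ) : Field.Ser k d →+* Field.Ser k d :=
  MvPowerSeries.map (iterateFrobeniusEquiv k p m).symm.toRingHom

theorem map_twist (m : ℕ) (f : Field.Ser k d) :
    MvPowerSeries.map (iterateFrobenius k p m) (twist p k d m f) = f := by
  ext α
  rw [twist, MvPowerSeries.coeff_map, MvPowerSeries.coeff_map, RingEquiv.toRingHom_eq_coe,
    RingHom.coe_coe, iterateFrobenius_def, ← iterateFrobeniusEquiv_def, RingEquiv.apply_symm_apply]

variable {d}

/-- The frame of a level at the scale `e`, with precision `n`. -/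
def frameOfLevel (Lv : Field.Level p k d) (e n : ℕ) :
    Frame p (Fin (d + 1)) k (Field.T0 k d) (ordRing k d) (Fin Lv.r) n where
  emb := Field.psiRoot p k d (e + n)
  ι := toOrdRing k d
  s := toOrdRing k d (Field.psiRoot p k d (e + n) (MvPowerSeries.X 0))
  s_ne h := by
    have h1 : Field.psiRoot p k d (e + n) (MvPowerSeries.X 0) = 0 :=
      Subtype.ext (congrArg (fun x : ordRing k d => (x : Field.Kbar k d)) h)
    have h2 : (MvPowerSeries.X 0 : Field.Ser k d) = 0 :=
      Field.psiRoot_injective p k d _ (by rw [h1, map_zero])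
    have h3 := congrArg (MvPowerSeries.coeff (Finsupp.single (0 : Fin (d + 1)) 1)) h2
    simp at h3
  β j := Field.root p k d e (Lv.beta j)
  C i := Lv.carrier.comap (iterateFrobenius (Field.T0 k d) p (e + i))
  cy := twist p k d (e + n) Lv.c
  κ := 0
  mono i _ z hz := by
    simp only [Subring.mem_comap, iterateFrobenius_def] at hz ⊢
    rw [← Nat.add_assoc, pow_succ p (e + i), pow_mul]
    exact pow_mem hz _
  root i _ z hz := by
    simp only [Subring.mem_comap, iterateFrobenius_def] at hz ⊢
    rw [← Nat.add_assoc, pow_succ' p (e + i), pow_mul]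
    exact hz
  emb_mem i hi g := by
    simp only [Subring.mem_comap, iterateFrobenius_def]
    rw [map_pow, ← pow_mul, ← pow_add, show n - i + (e + i) = e + n by omega, Field.psiRoot_pow]
    exact Lv.algebraMap_mem _
  β_mem j := by
    simp only [Subring.mem_comap, iterateFrobenius_def, Nat.add_zero]
    rw [Field.root_pow]
    exact Lv.beta_mem j
  indep g hg := by
    have h1 := congrArg (iterateFrobenius (Field.T0 k d) p (e + n)) hg
    simp only [map_sum, map_mul, map_zero, iterateFrobenius_def, Field.psiRoot_pow] at h1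
    have h2 := Lv.indep n (fun j => MvPowerSeries.map (iterateFrobenius k p (e + n)) (g j)) (by
      rw [← h1]
      refine Finset.sum_congr rfl fun j _ => ?_
      rw [pow_add, pow_mul, Field.root_pow])
    funext j
    ext α
    have h3 := congrArg (MvPowerSeries.coeff α) (h2 j)
    rw [MvPowerSeries.coeff_map, map_zero] at h3
    exact iterateFrobenius_inj k p (e + n) (h3.trans (map_zero _).symm)
  coords i hi z hz := by
    classical
    simp only [Subring.mem_comap, iterateFrobenius_def] at hz
    -- the best order available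
    have hfg : ∀ f : Fin Lv.r → Field.Ser k d,
        algebraMap (Field.Ser k d) (Field.T0 k d) (Lv.c ^ p ^ i) * z ^ p ^ (e + i) =
          ∑ j, algebraMap (Field.Ser k d) (Field.T0 k d) (f j) * Lv.beta j ^ p ^ i →
        Field.psiRoot p k d (e + n) (twist p k d (e + n) Lv.c ^ p ^ n) * z =
          ∑ j, Field.psiRoot p k d (e + n) (twist p k d (e + n) (f j) ^ p ^ (n - i)) *
            Field.root p k d e (Lv.beta j) := by
      intro f hf
      apply Field.pow_injective p k d (e + i)
      show (Field.psiRoot p k d (e + n) (twist p k d (e + n) Lv.c ^ p ^ n) * z) ^ p ^ (e + i) =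
        (∑ j, Field.psiRoot p k d (e + n) (twist p k d (e + n) (f j) ^ p ^ (n - i)) *
            Field.root p k d e (Lv.beta j)) ^ p ^ (e + i)
      rw [sum_pow_char_pow]
      have e1 : ∀ j, (Field.psiRoot p k d (e + n) (twist p k d (e + n) (f j) ^ p ^ (n - i)) *
          Field.root p k d e (Lv.beta j)) ^ p ^ (e + i) =
            algebraMap (Field.Ser k d) (Field.T0 k d) (f j) * Lv.beta j ^ p ^ i := fun j => by
        rw [mul_pow, map_pow, ← pow_mul, ← pow_add, show n - i + (e + i) = e + n by omega,
          Field.psiRoot_pow, map_twist, pow_add p e i, pow_mul, Field.root_pow]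
      rw [Finset.sum_congr rfl fun j _ => e1 j, ← hf, mul_pow, map_pow, map_pow, ← pow_mul,
        ← pow_add, show n + (e + i) = e + n + i by omega, pow_add p (e + n) i, pow_mul,
        Field.psiRoot_pow, map_twist]
    obtain ⟨f, hf, -⟩ := Lv.exists_coord i _ hz 0 (fun w => by
      rw [WithTop.coe_zero]; exact w.nonneg _)
    refine ⟨fun j => twist p k d (e + n) (f j), hfg f hf, fun m hm j => ?_⟩
    have hN : (0 : ℝ) < ((p ^ (e + n) : ℕ) : ℝ) := by exact_mod_cast pow_pos (Fact.out : p.Prime).pos _
    have hs : ∀ w : Field.OrdVal k d,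
        (((m : ℝ) / ((p ^ (n - i) : ℕ) : ℝ) : ℝ) : WithTop ℝ) ≤ w.at (z ^ p ^ (e + i)) := by
      intro w
      obtain ⟨q, hq⟩ := hm
      have h1 : (toOrdRing k d z : Field.Kbar k d) = ((toOrdRing k d
          (Field.psiRoot p k d (e + n) (MvPowerSeries.X 0)) : Field.Kbar k d) ^ m) * q := by
        rw [hq]; rfl
      rw [toOrdRing_coe, toOrdRing_coe] at h1
      have hX : w.at (Field.psiRoot p k d (e + n) (MvPowerSeries.X 0) ^ p ^ (e + n)) = (1 : ℝ) := by
        have h0 : (MvPowerSeries.X 0 : Field.Ser k d) ≠ 0 := fun h => by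
          have h3 := congrArg (MvPowerSeries.coeff (Finsupp.single (0 : Fin (d + 1)) 1)) h
          simp at h3
        rw [Field.psiRoot_pow, MvPowerSeries.map_X]
        refine (w.eq_ord _ h0).trans ?_
        rw [Field.ord, MvPowerSeries.X, MvPowerSeries.order_monomial_of_ne_zero one_ne_zero, Finsupp.degree_single]
        simp
      have hy : w.v (Field.psiRoot p k d (e + n) (MvPowerSeries.X 0) : Field.Kbar k d) ≠ ⊤ := by
        intro h
        simp only [Field.OrdVal.at, SubmonoidClass.coe_pow, AddValuation.map_pow, h] at hX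
        obtain ⟨N, hN'⟩ : ∃ N, p ^ (e + n) = N + 1 :=
          Nat.exists_eq_succ_of_ne_zero (pow_pos (Fact.out : p.Prime).pos _).ne'
        rw [hN', succ_nsmul, WithTop.add_top] at hX
        exact WithTop.top_ne_coe hX
      obtain ⟨y, hy⟩ := WithTop.ne_top_iff_exists.1 hy
      simp only [Field.OrdVal.at, SubmonoidClass.coe_pow, AddValuation.map_pow, ← hy] at hX ⊢
      rw [← WithTop.coe_nsmul, WithTop.coe_inj, nsmul_eq_mul] at hX
      rw [h1, AddValuation.map_mul, AddValuation.map_pow, ← hy]
      rcases eq_or_ne (w.v (q : Field.Kbar k d)) ⊤ with hq' | hq'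
      · obtain ⟨N, hN'⟩ : ∃ N, p ^ (e + i) = N + 1 :=
          Nat.exists_eq_succ_of_ne_zero (pow_pos (Fact.out : p.Prime).pos _).ne'
        rw [hq', WithTop.add_top, hN', succ_nsmul, WithTop.add_top]
        exact le_top
      · obtain ⟨r, hr⟩ := WithTop.ne_top_iff_exists.1 hq'
        have hr0 : (0 : ℝ) ≤ r := by
          have := q.2 w
          rwa [← hr, WithTop.coe_nonneg] at this
        rw [← hr, ← WithTop.coe_nsmul, ← WithTop.coe_add, ← WithTop.coe_nsmul, WithTop.coe_le_coe,
          nsmul_eq_mul, nsmul_eq_mul]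
        have hsplit : ((p ^ (e + n) : ℕ) : ℝ) = ((p ^ (e + i) : ℕ) : ℝ) * ((p ^ (n - i) : ℕ) : ℝ) := by
          rw [← Nat.cast_mul, ← pow_add, show e + i + (n - i) = e + n by omega]
        have hpi : (0 : ℝ) < ((p ^ (n - i) : ℕ) : ℝ) := by
          exact_mod_cast pow_pos (Fact.out : p.Prime).pos _
        rw [div_le_iff₀ hpi]
        rw [hsplit] at hX
        have h3 : 0 ≤ ((p ^ (e + i) : ℕ) : ℝ) * r * ((p ^ (n - i) : ℕ) : ℝ) := by positivity
        linear_combination h3 + (m : ℝ) * hX.ge
    obtain ⟨f', hf', hf'ord⟩ := Lv.exists_coord i _ hz _ hs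
    have hff : f' = f := by
      funext j
      refine sub_eq_zero.1 (Lv.indep i (fun j => f' j - f j) ?_ j)
      simp only [map_sub, sub_mul, Finset.sum_sub_distrib, ← hf, ← hf', sub_self]
    subst hff
    simp only [Nat.sub_zero]
    have hf2 : twist p k d (e + n) (f' j) ∈
        ordIdeal (Fin (d + 1)) k ((m + p ^ (n - i) - 1) / p ^ (n - i)) := fun α hα => by
      rw [twist, MvPowerSeries.coeff_map, hf'ord j α ?_, map_zero]
      rw [lt_div_iff₀ (by exact_mod_cast pow_pos (Fact.out : p.Prime).pos _)]
      have h1 := (Nat.le_div_iff_mul_le (pow_pos (Fact.out : p.Prime).pos _)).1 (Nat.succ_le_of_lt hα)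
      rw [Nat.succ_mul] at h1
      have h2 : 0 < p ^ (n - i) := pow_pos (Fact.out : p.Prime).pos _
      have h3 : degree α * p ^ (n - i) < m := by omega
      exact_mod_cast h3
    refine ordIdeal_mono ?_ (pow_mem_ordIdeal hf2 (p ^ (n - i)))
    have h2 := Nat.lt_div_mul_add (a := m + p ^ (n - i) - 1) (pow_pos (Fact.out : p.Prime).pos (n - i))
    rw [mul_comm ((m + p ^ (n - i) - 1) / p ^ (n - i))] at h2
    omega
  saturated t ht ht0 z hz := by
    simp only [Subring.mem_comap, iterateFrobenius_def] at ht hz ⊢
    rw [mul_pow] at hz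
    exact Lv.saturated _ ht (pow_ne_zero _ ht0) _ hz
  ord_dvd g m hg := by
    classical
    set Y := (Field.psiRoot p k d (e + n) (MvPowerSeries.X 0) : Field.Kbar k d) with hY
    set G := (Field.psiRoot p k d (e + n) g : Field.Kbar k d) with hG
    have hYne : Y ≠ 0 := fun h => by
      have h2 : (MvPowerSeries.X 0 : Field.Ser k d) = 0 :=
        Field.psiRoot_injective p k d (e + n) (by rw [map_zero]; exact Subtype.ext h)
      have h3 := congrArg (MvPowerSeries.coeff (Finsupp.single (0 : Fin (d + 1)) 1)) h2
      simp at h3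
    refine ⟨⟨G / Y ^ m, fun w => ?_⟩, Subtype.ext ?_⟩
    · rcases eq_or_ne g 0 with rfl | hg0
      · rw [hG, map_zero, ZeroMemClass.coe_zero, zero_div, AddValuation.map_zero]
        exact le_top
      refine nonneg_of_pow k d (pow_pos (Fact.out : p.Prime).pos (e + n)) w ?_
      have hF0 : MvPowerSeries.map (iterateFrobenius k p (e + n)) g ≠ 0 := fun h => hg0 (by
        ext α
        have h3 := congrArg (MvPowerSeries.coeff α) h
        rw [MvPowerSeries.coeff_map, map_zero] at h3
        exact iterateFrobenius_inj k p (e + n) (h3.trans (map_zero _).symm))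
      have hX0 : (MvPowerSeries.X 0 : Field.Ser k d) ≠ 0 := fun h => by
        have h3 := congrArg (MvPowerSeries.coeff (Finsupp.single (0 : Fin (d + 1)) 1)) h
        simp at h3
      have hGN : G ^ p ^ (e + n) =
          algebraMap (Field.Ser k d) (Field.Kbar k d) (MvPowerSeries.map (iterateFrobenius k p (e + n)) g) := by
        rw [hG, ← SubmonoidClass.coe_pow, Field.psiRoot_pow]
        rfl
      have hYN : Y ^ p ^ (e + n) = algebraMap (Field.Ser k d) (Field.Kbar k d) (MvPowerSeries.X 0) := by
        rw [hY, ← SubmonoidClass.coe_pow, Field.psiRoot_pow, MvPowerSeries.map_X]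
        rfl
      rw [div_pow, ← pow_mul, mul_comm m, pow_mul, hGN, hYN, AddValuation.map_div,
        AddValuation.map_pow, w.eq_ord _ hF0, w.eq_ord _ hX0, ← WithTop.coe_nsmul,
        ← WithTop.LinearOrderedAddCommGroup.coe_sub, WithTop.coe_nonneg, sub_nonneg, nsmul_eq_mul,
        Field.ord, Field.ord, MvPowerSeries.X, MvPowerSeries.order_monomial_of_ne_zero one_ne_zero, Finsupp.degree_single]
      simp only [ENat.toNat_one, Nat.cast_one, mul_one]
      have hle : (m : ℕ∞) ≤ (MvPowerSeries.map (iterateFrobenius k p (e + n)) g).order :=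
        MvPowerSeries.nat_le_order fun α hα => by
          rw [MvPowerSeries.coeff_map, hg α hα, map_zero]
      have hne : (MvPowerSeries.map (iterateFrobenius k p (e + n)) g).order ≠ ⊤ := fun h =>
        hF0 (MvPowerSeries.order_eq_top_iff.1 h)
      have h5 := ENat.toNat_le_toNat hle hne
      rw [ENat.toNat_natCast] at h5
      exact_mod_cast h5
    · show G = Y ^ m * (G / Y ^ m)
      rw [mul_div_cancel₀ _ (pow_ne_zero _ hYne)]

end Vale.Agent.P202.Mixed.Lattice
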