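import Vale.Agent.P202.Mixed.Lattice.Lat
import Vale.Agent.P202.Mixed.Lattice.Matrix

/-!
# P202 mixed characteristic, lattice block: the kernels on the lattice with `B` adjoined

A ring map `Φ` of `Lat ⊗ B` and the images of the basis give a kernel on vectors over `Lat ⊗ B`;
matrices representing Witt vectors act on it as scalars.
-/

noncomputable section

namespace Vale.Agent.P202.Mixed.Lattice

open MvPowerSeries TensorProduct Assemble Matrix

universe u

section General

variable {P A B : Type u} [CommRing P] [CommRing A] [CommRing B] [Algebra P A] [Algebra P B]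
  {Q : Type*} [CommRing Q]

/-- The map of `A ⊗ B` from compatible maps of the factors. -/
def tensorHom (f : A →+* Q) (g : B →+* Q)
    (h : ∀ π, f (algebraMap P A π) = g (algebraMap P B π)) : R2 P A B →+* Q :=
  letI : Algebra P Q := (g.comp (algebraMap P B)).toAlgebra
  (Algebra.TensorProduct.lift (⟨f, h⟩ : A →ₐ[P] Q) (⟨g, fun _ => rfl⟩ : B →ₐ[P] Q)
    fun _ _ => Commute.all _ _).toRingHom

theorem tensorHom_inA (f : A →+* Q) (g : B →+* Q)
    (h : ∀ π, f (algebraMap P A π) = g (algebraMap P B π)) (a : A) :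
    tensorHom f g h (inA a) = f a := by
  simp [tensorHom, inA]

theorem tensorHom_inB (f : A →+* Q) (g : B →+* Q)
    (h : ∀ π, f (algebraMap P A π) = g (algebraMap P B π)) (b : B) :
    tensorHom f g h (inB b) = g b := by
  simp [tensorHom, inB]

variable {r : ℕ}

/-- The vectors whose combination of the `v i` under `Φ` vanishes. -/
def sumKer (Φ : R2 P A B →+* Q) (v : Fin r → Q) :
    Submodule (R2 P A B) (Fin r → R2 P A B) where
  carrier := {y | ∑ i, Φ (y i) * v i = 0}
  add_mem' {y y'} hy hy' := by
    simp only [Set.mem_ofPred_eq, Pi.add_apply, map_add, add_mul, Finset.sum_add_distrib] at *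
    rw [hy, hy', add_zero]
  zero_mem' := by simp
  smul_mem' c y hy := by
    simp only [Set.mem_ofPred_eq, Pi.smul_apply, smul_eq_mul, map_mul, mul_assoc,
      ← Finset.mul_sum] at *
    rw [hy, mul_zero]

theorem mem_sumKer {Φ : R2 P A B →+* Q} {v : Fin r → Q} {y : Fin r → R2 P A B} :
    y ∈ sumKer Φ v ↔ ∑ i, Φ (y i) * v i = 0 := Iff.rfl

theorem sum_matV (Φ : R2 P A B →+* Q) (v : Fin r → Q) (M : Matrix (Fin r) (Fin r) A)
    (y : Fin r → R2 P A B) :
    ∑ i, Φ (matV M y i) * v i = ∑ j, Φ (y j) * ∑ i, Φ (inA (M i j)) * v i := by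
  simp only [matV, Matrix.mulVecLin_apply, Matrix.mulVec, dotProduct, Matrix.map_apply, map_sum,
    map_mul, Finset.sum_mul, Finset.mul_sum]
  rw [Finset.sum_comm]
  exact Finset.sum_congr rfl fun j _ => Finset.sum_congr rfl fun i _ => by ring

end General

namespace Frame

variable {p : ℕ} [Fact p.Prime] {L : Type u} [CommRing L] {d m : ℕ} {T : Type*} [CommRing T]
  {O : Type*} [CommRing O] {r n : ℕ} {F : Frame p (Fin (d + 1)) L T O (Fin r) n}

/-- A representing matrix depends on the Witt vector only modulo `p ^ n`. -/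
theorem Rep.congr {M : Matrix (Fin r) (Fin r) (PS p L d)} {w w' : WittVector p T}
    (h : F.Rep M w) (hw : (p : WittVector p T) ^ n ∣ w' - w) : F.Rep M w' := fun a => by
  have := dvd_add (h a) (hw.mul_right (F.psi a))
  convert this using 1
  ring

variable (F)

/-- The evaluation on the lattice ring. -/
def latHom : Lat p L d m →+* WittVector p T := F.φ

/-- The combinations of the basis, on the lattice ring. -/
def latPsi : (Fin r → Lat p L d m) →+ WittVector p T := F.psi

theorem latPsi_apply (a : Fin r → Lat p L d m) :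
    F.latPsi a = ∑ j, F.latHom (a j) * WittVector.teichmuller p (F.β j) := rfl

theorem latPsi_single [DecidableEq (Fin r)] (j : Fin r) :
    F.latPsi (Pi.single j (1 : Lat p L d m)) = WittVector.teichmuller p (F.β j) := by
  rw [latPsi_apply, Finset.sum_eq_single j (fun i _ hi => by
      rw [Pi.single_eq_of_ne hi, map_zero, zero_mul])
    (fun h => absurd (Finset.mem_univ j) h), Pi.single_eq_same, map_one, one_mul]

/-- The matrix over the lattice ring represents `w` modulo `p ^ n`. -/
def LRep (M : Matrix (Fin r) (Fin r) (Lat p L d m)) (w : WittVector p T) : Prop :=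
  ∀ a : Fin r → Lat p L d m, (p : WittVector p T) ^ n ∣ w * F.latPsi a - F.latPsi (M *ᵥ a)

variable {B : Type u} [CommRing B] [Algebra (PS p L d) B] {Q : Type*} [CommRing Q]
  {J : WittVector p T →+* Q} {Φ : R2 (PS p L d) (Lat p L d m) B →+* Q}

theorem sum_incV (hΦ : ∀ a : Lat p L d m, Φ (inA a) = J (F.latHom a))
    (a : Fin r → Lat p L d m) :
    ∑ i, Φ (incV a i) * J (WittVector.teichmuller p (F.β i)) = J (F.latPsi a) := by
  rw [latPsi_apply, map_sum]
  refine Finset.sum_congr rfl fun i _ => ?_
  rw [map_mul, incV, hΦ]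

/-- A representing matrix acts on the combination as multiplication by its Witt vector. -/
theorem sum_matV_eq (hΦ : ∀ a : Lat p L d m, Φ (inA a) = J (F.latHom a))
    (hJ : J ((p : WittVector p T) ^ n) = 0) {M : Matrix (Fin r) (Fin r) (Lat p L d m)}
    {w : WittVector p T} (hM : F.LRep M w) (y : Fin r → R2 (PS p L d) (Lat p L d m) B) :
    ∑ i, Φ (matV M y i) * J (WittVector.teichmuller p (F.β i)) =
      J w * ∑ i, Φ (y i) * J (WittVector.teichmuller p (F.β i)) := by
  rw [sum_matV, Finset.mul_sum]
  refine Finset.sum_congr rfl fun j _ => ?_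
  obtain ⟨q, hq⟩ := hM (Pi.single j 1)
  have h1 : J (F.latPsi fun i => M i j) = J w * J (WittVector.teichmuller p (F.β j)) := by
    rw [← F.latPsi_single (m := m) j, ← map_mul, sub_eq_iff_eq_add.1 hq, map_add, map_mul, hJ,
      zero_mul, zero_add, Matrix.mulVec_single_one]
    rfl
  have h2 : ∑ i, Φ (inA (M i j)) * J (WittVector.teichmuller p (F.β i)) =
      J (F.latPsi fun i => M i j) := F.sum_incV hΦ fun i => M i j
  rw [h2, h1]
  ring

theorem incV_mulVec (a : Fin r → Lat p L d m) (M : Matrix (Fin r) (Fin r) (Lat p L d m)) :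
    (incV (M *ᵥ a) : Fin r → R2 (PS p L d) (Lat p L d m) B) = matV M (incV a) := by
  funext i
  simp [incV, matV, Matrix.mulVec, dotProduct, map_sum]

/-- The image of a representing matrix on lattice vectors. -/
theorem sum_incV_mulVec (hΦ : ∀ a : Lat p L d m, Φ (inA a) = J (F.latHom a))
    (hJ : J ((p : WittVector p T) ^ n) = 0) {M : Matrix (Fin r) (Fin r) (Lat p L d m)}
    {w : WittVector p T} (hM : F.LRep M w) (a : Fin r → Lat p L d m) :
    ∑ i, Φ (incV (M *ᵥ a) i) * J (WittVector.teichmuller p (F.β i)) = J w * J (F.latPsi a) := by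
  rw [incV_mulVec, F.sum_matV_eq hΦ hJ hM, F.sum_incV hΦ]

end Frame

end Vale.Agent.P202.Mixed.Lattice
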