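import Vale.Agent.P202.Mixed.Lattice.Lengths

/-!
# P202 mixed characteristic, lattice block: cokernels over Witt vectors from cokernels over the field

The cokernel of a matrix over `W(k)[[Y]]` cut at `(p ^ n, Y_a ^ w)` is at most `n` times as long as
that of its reduction over `k[[Y]]` cut at `(Y_a ^ w)`.
-/

noncomputable section

namespace Vale.Agent.P202.Mixed.Lattice

open MvPowerSeries Finsupp

universe u

variable {p : ℕ} [Fact p.Prime] {F : Type u} [Field F] [CharP F p] [PerfectRing F p] {d r : ℕ}

variable (p F d) in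
/-- Reduction modulo `p`. -/
abbrev redPS : PS p F d →+* MvPowerSeries (Fin (d + 1)) F :=
  MvPowerSeries.map WittVector.constantCoeff

variable (F d r) in
/-- Vectors over the field with entries in the `w`-th powers of the variables. -/
abbrev vecX (w : ℕ) : Submodule (MvPowerSeries (Fin (d + 1)) F) (Fin r → MvPowerSeries (Fin (d + 1)) F) :=
  Submodule.pi Set.univ fun _ =>
    Ideal.span (Set.range fun a : Fin (d + 1) => (MvPowerSeries.X a : MvPowerSeries (Fin (d + 1)) F) ^ w)

omit [CharP F p] [PerfectRing F p] in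
theorem redPS_liftPS (f : MvPowerSeries (Fin (d + 1)) F) : redPS p F d (liftPS p f) = f :=
  map_liftPS f

/-- Vectors reducing into the range of the reduced matrix and the cut lie in the range and cut. -/
theorem mem_range_sup_cut_one (M : Matrix (Fin r) (Fin r) (PS p F d)) (w : ℕ)
    {x : Fin r → PS p F d} (hx : (fun i => redPS p F d (x i)) ∈
      LinearMap.range (M.map (redPS p F d)).mulVecLin ⊔ vecX F d r w) :
    x ∈ LinearMap.range M.mulVecLin ⊔ vecS (cutIdeal (d + 1) p F 1 w) := by
  classical
  obtain ⟨_, ⟨q, rfl⟩, t, ht, hqt⟩ := Submodule.mem_sup.1 hx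
  choose c hc using fun i => Ideal.mem_span_range_iff_exists_fun.1 (ht i (Set.mem_univ _))
  refine Submodule.mem_sup.2 ⟨M.mulVecLin fun i => liftPS p (q i), ⟨_, rfl⟩,
    x - M.mulVecLin (fun i => liftPS p (q i)), fun i _ => ?_, add_sub_cancel _ _⟩
  have h : redPS p F d ((x - M.mulVecLin (fun i => liftPS p (q i))) i -
      ∑ a, liftPS p (c i a) * (MvPowerSeries.X a : PS p F d) ^ w) = 0 := by
    have h1 := congrFun hqt i
    simp only [Pi.add_apply, Matrix.mulVecLin_apply] at h1
    rw [Pi.sub_apply, map_sub, map_sub, map_sum, ← h1, ← hc i, Matrix.mulVecLin_apply,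
      RingHom.map_mulVec]
    simp [redPS_liftPS, Function.comp_def]
  obtain ⟨b, hb⟩ := exists_eq_p_mul _ h
  rw [sub_eq_iff_eq_add] at hb
  rw [hb]
  refine add_mem (Submodule.mem_sup_left (Ideal.mem_span_singleton.2 ?_))
    (Submodule.mem_sup_right (Ideal.sum_mem _ fun a _ =>
      Ideal.mul_mem_left _ _ (Ideal.subset_span (Set.mem_range_self a))))
  rw [pow_one]
  exact dvd_mul_right _ _

/-- The first step of the filtration. -/
theorem length_quot_cut_one_le (M : Matrix (Fin r) (Fin r) (PS p F d)) (w : ℕ) :
    Module.length (PS p F d)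
      ((Fin r → PS p F d) ⧸ (LinearMap.range M.mulVecLin ⊔ vecS (cutIdeal (d + 1) p F 1 w))) ≤
    Module.length (MvPowerSeries (Fin (d + 1)) F)
      ((Fin r → MvPowerSeries (Fin (d + 1)) F) ⧸
        (LinearMap.range (M.map (redPS p F d)).mulVecLin ⊔ vecX F d r w)) := by
  let := (redPS p F d).toAlgebra
  have hsurj : Function.Surjective
      (algebraMap (PS p F d) (MvPowerSeries (Fin (d + 1)) F)) := fun f => ⟨_, redPS_liftPS f⟩
  let N := LinearMap.range (M.map (redPS p F d)).mulVecLin ⊔ vecX F d r w
  let L : (Fin r → PS p F d) →ₗ[PS p F d] (Fin r → MvPowerSeries (Fin (d + 1)) F) ⧸ N :=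
    (N.mkQ.restrictScalars (PS p F d)).comp
      ((Algebra.linearMap (PS p F d) (MvPowerSeries (Fin (d + 1)) F)).compLeft (Fin r))
  have hL : Function.Surjective L := fun y => by
    obtain ⟨x, rfl⟩ := Submodule.mkQ_surjective _ y
    exact ⟨fun i => liftPS p (x i),
      congrArg N.mkQ (funext fun i => redPS_liftPS (p := p) (x i))⟩
  have hker : LinearMap.ker L ≤ LinearMap.range M.mulVecLin ⊔ vecS (cutIdeal (d + 1) p F 1 w) :=
    fun x hx => mem_range_sup_cut_one M w ((Submodule.Quotient.mk_eq_zero N).1 hx)
  refine (Module.length_le_of_surjective (Submodule.factor hker)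
    (Submodule.factor_surjective hker)).trans ?_
  rw [(L.quotKerEquivOfSurjective hL).length_eq, Module.length_eq_of_surjective hsurj]

/-- **Cokernels over Witt vectors**: at most `n` times the cokernel of the reduction. -/
theorem length_quot_reduction (M : Matrix (Fin r) (Fin r) (PS p F d)) {w o : ℕ}
    (h : Module.length (MvPowerSeries (Fin (d + 1)) F)
      ((Fin r → MvPowerSeries (Fin (d + 1)) F) ⧸
        (LinearMap.range (M.map (redPS p F d)).mulVecLin ⊔ vecX F d r w)) ≤ (o : ℕ∞)) :
    ∀ n : ℕ, Module.length (PS p F d)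
      ((Fin r → PS p F d) ⧸ (LinearMap.range M.mulVecLin ⊔ vecS (cutIdeal (d + 1) p F n w))) ≤
      ((n * o : ℕ) : ℕ∞) := by
  intro n
  induction n with
  | zero =>
    have htop : LinearMap.range M.mulVecLin ⊔ vecS (cutIdeal (d + 1) p F 0 w) = ⊤ :=
      eq_top_iff.2 fun x _ => Submodule.mem_sup_right fun i _ => Submodule.mem_sup_left (by
        rw [pow_zero, Ideal.span_singleton_one]; trivial)
    rw [(Submodule.quotEquivOfEq _ _ htop).length_eq, Module.length_eq_zero]
    exact zero_le
  | succ n ih =>
    let f : (Fin r → PS p F d) →ₗ[PS p F d] (Fin r → PS p F d) :=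
      LinearMap.lsmul (PS p F d) (Fin r → PS p F d) (p : PS p F d)
    have hf : LinearMap.range M.mulVecLin ⊔ vecS (cutIdeal (d + 1) p F n w) ≤
        (LinearMap.range M.mulVecLin ⊔ vecS (cutIdeal (d + 1) p F (n + 1) w)).comap f := by
      refine sup_le (fun x hx => Submodule.mem_sup_left (Submodule.smul_mem _ _ hx))
        fun x hx => Submodule.mem_sup_right fun i hi => ?_
      obtain ⟨a, ha, b, hb, hab⟩ := Submodule.mem_sup.1 (hx i hi)
      show (p : PS p F d) * x i ∈ cutIdeal (d + 1) p F (n + 1) w
      rw [← hab, mul_add]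
      refine add_mem (Submodule.mem_sup_left (Ideal.mem_span_singleton.2 ?_))
        (Submodule.mem_sup_right (Ideal.mul_mem_left _ _ hb))
      rw [pow_succ']
      exact mul_dvd_mul_left _ (Ideal.mem_span_singleton.1 ha)
    have hone : LinearMap.range M.mulVecLin ⊔ vecS (cutIdeal (d + 1) p F 1 w) ≤
        LinearMap.range f ⊔
          (LinearMap.range M.mulVecLin ⊔ vecS (cutIdeal (d + 1) p F (n + 1) w)) := by
      refine sup_le (le_sup_left.trans (le_sup_right (a := LinearMap.range f))) fun x hx => ?_
      choose a ha b hb hab using fun i => Submodule.mem_sup.1 (hx i (Set.mem_univ _))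
      choose q hq using fun i => Ideal.mem_span_singleton.1 (ha i)
      rw [show x = f q + b from funext fun i => by
        rw [← hab i, hq i, pow_one]; rfl]
      exact add_mem (Submodule.mem_sup_left ⟨q, rfl⟩) (Submodule.mem_sup_right
        (Submodule.mem_sup_right fun i _ => Submodule.mem_sup_right (hb i)))
    refine (length_le_add_range_sup f hf).trans ?_
    rw [Nat.succ_mul, Nat.cast_add]
    exact add_le_add ih ((Module.length_le_of_surjective (Submodule.factor hone)
      (Submodule.factor_surjective hone)).trans ((length_quot_cut_one_le M w).trans h))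

end Vale.Agent.P202.Mixed.Lattice
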