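import Vale.Agent.P202.Mixed.Lattice.FieldFrame
import Vale.Agent.P202.Mixed.Lattice.Lengths
import Vale.Agent.P202.Mixed.Field.Ord

/-!
# P202 mixed characteristic, lattice block: determinants at a level, divisibility by the variable

For the frame of a level the reduction of the matrix of the slack has nonzero determinant whose
order is bounded by the valuation; lower bounds on valuations give divisibility by the variable.
-/

noncomputable section

namespace Vale.Agent.P202.Mixed.Lattice

open MvPowerSeries Finsupp Matrix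

universe u

variable {p : ℕ} [Fact p.Prime] {k : Type u} [_root_.Field k] [CharP k p] {d : ℕ}

variable [PerfectRing k p]

omit [CharP k p] [PerfectRing k p] in
theorem order_map_le {k' : Type*} [CommRing k'] (g : k →+* k') [IsDomain k'] {f : Field.Ser k d}
    {o : ℕ} (h : f.order ≤ (o : ℕ∞)) : (MvPowerSeries.map g f).order ≤ (o : ℕ∞) := by
  obtain ⟨α, hα, hne⟩ := order_le_iff_exists.1 h
  exact order_le_iff_exists.2 ⟨α, hα, by
    rw [MvPowerSeries.coeff_map]; exact (map_ne_zero g).2 hne⟩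

theorem frameOfLevel_cy_order (Lv : Field.Level p k d) (e n : ℕ) :
    (frameOfLevel p k Lv e n).cy.order ≤ ((Field.ord k d Lv.c : ℕ) : ℕ∞) :=
  order_map_le _ (Field.order_eq_ord Lv.c_ne).le

theorem mem_frameOfLevel_C_zero (Lv : Field.Level p k d) (e n : ℕ) {z : Field.T0 k d} :
    z ∈ (frameOfLevel p k Lv e n).C 0 ↔ z ^ p ^ e ∈ Lv.carrier := by
  show iterateFrobenius (Field.T0 k d) p (e + 0) z ∈ Lv.carrier ↔ _
  simp only [iterateFrobenius_def, Nat.add_zero]

omit [PerfectRing k p] in
theorem psiRoot_pow_pow (Lv : Field.Level p k d) {e n : ℕ} (j : Fin Lv.r) :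
    Field.root p k d e (Lv.beta j) ^ p ^ (e + n) = Lv.beta j ^ p ^ n := by
  rw [pow_add, pow_mul, Field.root_pow]

/-- The order of the determinant of the reduction of the matrix of the slack. -/
theorem det_slack_le (Lv : Field.Level p k d) (e n : ℕ) (hn : 0 < n) {u : Field.T0 k d} {μ : ℕ}
    (hμ : ∀ w : Field.OrdVal k d, w.at (u ^ p ^ e) ≤ ((μ : ℝ) : WithTop ℝ))
    {Γ : Matrix (Fin Lv.r) (Fin Lv.r) (PS p k d)}
    (hΓ : (frameOfLevel p k Lv e n).Rep Γ ((frameOfLevel p k Lv e n).φ
      (frameOfLevel p k Lv e n).δ ^ n * WittVector.teichmuller p u)) :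
    (Γ.map (MvPowerSeries.map WittVector.constantCoeff)).det ≠ 0 ∧
      (Γ.map (MvPowerSeries.map WittVector.constantCoeff)).det.order ≤
        ((Lv.r * (p ^ n * (n * Field.ord k d Lv.c + μ)) : ℕ) : ℕ∞) := by
  classical
  set F := frameOfLevel p k Lv e n with hF
  let a : Field.Ser k d →+* Field.T0 k d := algebraMap _ _
  let G := Γ.map (MvPowerSeries.map WittVector.constantCoeff)
  let G' := (MvPowerSeries.map (iterateFrobenius k p (e + n))).mapMatrix G
  -- the relation modulo `p`
  have h0 : ∀ j, Field.psiRoot p k d (e + n) ((twist p k d (e + n) Lv.c ^ p ^ n) ^ n) * u *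
      Field.root p k d e (Lv.beta j) =
      ∑ l, Field.psiRoot p k d (e + n) (G l j) * Field.root p k d e (Lv.beta l) := by
    intro j
    obtain ⟨q, hq⟩ := hΓ (Pi.single j 1)
    have h1 := congrArg (WittVector.constantCoeff (p := p) (R := Field.T0 k d)) hq
    simp only [map_sub, map_mul, map_pow, map_natCast, CharP.cast_eq_zero, zero_pow hn.ne',
      zero_mul, WittVector.constantCoeff_apply, WittVector.teichmuller_coeff_zero,
      F.φ_δ_coeff_zero, Frame.psi_coeff_zero, sub_eq_zero, Matrix.mulVec_single_one] at h1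
    rw [Finset.sum_eq_single j (fun l _ hl => by simp [Pi.single_eq_of_ne hl])
      (fun h => absurd (Finset.mem_univ j) h), Pi.single_eq_same, map_one, map_one, one_mul] at h1
    simpa only [hF, frameOfLevel, map_pow, Matrix.col_apply, G, Matrix.map_apply] using h1
  have h1 : ∀ j, a Lv.c ^ (p ^ n * n) * (u ^ p ^ e) ^ p ^ n * Lv.beta j ^ p ^ n =
      ∑ l, a (G' l j) * Lv.beta l ^ p ^ n := by
    intro j
    have h2 := congrArg (iterateFrobenius (Field.T0 k d) p (e + n)) (h0 j)
    simp only [map_sum, map_mul, iterateFrobenius_def, Field.psiRoot_pow, psiRoot_pow_pow,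
      map_pow, map_twist] at h2
    rw [pow_mul, ← pow_mul u, ← pow_add]
    exact h2
  have hμ' : ∀ w : Field.OrdVal k d, w.at (a Lv.c ^ (p ^ n * n) * (u ^ p ^ e) ^ p ^ n) ≤
      (((p ^ n * (n * Field.ord k d Lv.c + μ) : ℕ) : ℝ) : WithTop ℝ) := fun w => by
    have h2 := hμ w
    simp only [Field.OrdVal.at, MulMemClass.coe_mul, SubmonoidClass.coe_pow, AddValuation.map_mul,
      AddValuation.map_pow] at h2 ⊢
    rw [show w.v ((a Lv.c : Field.T0 k d) : Field.Kbar k d) =
      ((Field.ord k d Lv.c : ℝ) : WithTop ℝ) from w.eq_ord _ Lv.c_ne, ← WithTop.coe_nsmul]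
    refine (add_le_add le_rfl (nsmul_le_nsmul_right h2 (p ^ n))).trans (le_of_eq ?_)
    rw [← WithTop.coe_nsmul, ← WithTop.coe_add, WithTop.coe_inj]
    push_cast [nsmul_eq_mul]
    ring
  obtain ⟨hdet, hord⟩ := Lv.ord_det_le n _ G' _ h1 hμ'
  have hdet' : G'.det = MvPowerSeries.map (iterateFrobenius k p (e + n)) G.det :=
    (RingHom.map_det _ _).symm
  have hG : G.det ≠ 0 := fun h => hdet (by rw [hdet', h, map_zero])
  refine ⟨hG, ?_⟩
  obtain ⟨α, hα, hne⟩ := order_le_iff_exists.1
    ((Field.order_eq_ord hdet).le.trans (Nat.cast_le.2 (by exact_mod_cast hord :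
      Field.ord k d G'.det ≤ Lv.r * (p ^ n * (n * Field.ord k d Lv.c + μ)))))
  rw [hdet', MvPowerSeries.coeff_map] at hne
  exact order_le_iff_exists.2 ⟨α, hα, fun h => hne (by
    rw [show MvPowerSeries.coeff α G.det = 0 from h, map_zero])⟩

/-- A valuation bound gives divisibility by a power of the variable of the frame. -/
theorem frameOfLevel_s_pow_dvd (Lv : Field.Level p k d) (e n : ℕ) {z : Field.T0 k d} {m : ℕ}
    (h : ∀ w : Field.OrdVal k d, ((m : ℝ) : WithTop ℝ) ≤ w.at (z ^ p ^ (e + n))) :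
    (frameOfLevel p k Lv e n).s ^ m ∣ (frameOfLevel p k Lv e n).ι z := by
  set Y := (Field.psiRoot p k d (e + n) (MvPowerSeries.X 0) : Field.Kbar k d) with hY
  have hX0 : (MvPowerSeries.X 0 : Field.Ser k d) ≠ 0 := fun h => by
    have h3 := congrArg (MvPowerSeries.coeff (Finsupp.single (0 : Fin (d + 1)) 1)) h
    simp at h3
  have hYne : Y ≠ 0 := fun h =>
    hX0 (Field.psiRoot_injective p k d (e + n) (by rw [map_zero]; exact Subtype.ext h))
  refine ⟨⟨(z : Field.Kbar k d) / Y ^ m, fun w => ?_⟩, Subtype.ext ?_⟩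
  · refine nonneg_of_pow k d (pow_pos (Fact.out : p.Prime).pos (e + n)) w ?_
    have hYN : Y ^ p ^ (e + n) =
        algebraMap (Field.Ser k d) (Field.Kbar k d) (MvPowerSeries.X 0) := by
      rw [hY, ← SubmonoidClass.coe_pow, Field.psiRoot_pow, MvPowerSeries.map_X]
      rfl
    have hw := h w
    rw [Field.OrdVal.at, SubmonoidClass.coe_pow] at hw
    rw [div_pow, ← pow_mul, mul_comm m, pow_mul, hYN, AddValuation.map_div, AddValuation.map_pow w.v (algebraMap _ _ _),
      w.eq_ord _ hX0, ← WithTop.coe_nsmul, nsmul_eq_mul, Field.ord, MvPowerSeries.X,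
      MvPowerSeries.order_monomial_of_ne_zero one_ne_zero, Finsupp.degree_single]
    simp only [ENat.toNat_one, Nat.cast_one, mul_one]
    rcases eq_or_ne (w.v ((z : Field.Kbar k d) ^ p ^ (e + n))) ⊤ with htop | hne
    · rw [htop]; simp
    · obtain ⟨q, hq⟩ := WithTop.ne_top_iff_exists.1 hne
      rw [← hq, WithTop.coe_le_coe] at hw
      rw [← hq, ← WithTop.LinearOrderedAddCommGroup.coe_sub, WithTop.coe_nonneg, sub_nonneg]
      exact hw
  · show (z : Field.Kbar k d) = Y ^ m * ((z : Field.Kbar k d) / Y ^ m)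
    rw [mul_div_cancel₀ _ (pow_ne_zero _ hYne)]

end Vale.Agent.P202.Mixed.Lattice
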