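import Vale.Agent.P202.Mixed.Lattice.Data
import Vale.Agent.P202.Mixed.Lattice.Compat
import Vale.Agent.P202.Mixed.Lattice.Norm
import Vale.Agent.P202.Mixed.Lattice.Lift
import Vale.Agent.P202.Mixed.Lattice.Base
import Vale.Agent.P202.Mixed.Lattice.DetBound

/-!
# P202 mixed characteristic, lattice block: the data of a chain at a level

`exists_data_level` gives `Assemble.Data` for the frame of a level, with error linear in its rank.
-/

noncomputable section

namespace Vale.Agent.P202.Mixed.Lattice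

open MvPowerSeries Assemble

universe u

variable {p : ℕ} [Fact p.Prime] {k : Type u} [_root_.Field k] [CharP k p] [IsAlgClosed k] {d : ℕ}

/-- The data of a chain from a level, untilts and the slack. -/
theorem exists_data_level (Lv : Field.Level p k d) (e n : ℕ) (hn : 0 < n) {B : Type u} [CommRing B]
    [IsLocalRing B] [Algebra (PS p k d) B] {R K : ℕ} {mB mM : ℕ} {u : Field.T0 k d}
    {genB : Fin mB → B} {genM : Fin mM → B}
    (U : Untilts (frameOfLevel p k Lv e n) (evalT (algebraMap (Field.Ser k d) (Field.T0 k d))) B R K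
      u genB genM)
    {Q v D : ℕ} (hR : 1 ≤ R) (hK : 1 ≤ K) (hQ : p ^ (e + n) = R * Q) (hv : v ≤ n * K)
    (Mo : Model p B (C := WittVector p k) (d := d) D)
    (hgenB : Submodule.span (PS p k d) (Set.range genB) = ⊤)
    (hgenM : Ideal.span (Set.range genM) = IsLocalRing.maximalIdeal B)
    {U₀ : WittVector p (Field.T0 k d)} (hU₀ : U₀ ∈ (frameOfLevel p k Lv e n).levW 0)
    (hg : (p : WittVector p (Field.T0 k d)) ^ n ∣
      evalT (algebraMap (Field.Ser k d) (Field.T0 k d)) Mo.g - U₀ * ∏ l ∈ Finset.range D,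
        ((p : WittVector p (Field.T0 k d)) - WittVector.teichmuller p (U.t l)))
    (hu : u ^ p ^ e ∈ Lv.carrier) {μ : ℕ}
    (hμ : ∀ w : Field.OrdVal k d, w.at (u ^ p ^ e) ≤ ((μ : ℝ) : WithTop ℝ)) :
    Nonempty (Assemble.Data (PS p k d) (Lat p k d (e + n)) B p (modelX B (WittVector p k) (d := d))
      Mo.h D Q K v (Lv.r * R ^ (d + 1))
      (Lv.r * (n * (p ^ n * (((n + 1) * n + n * (D + 3)) * Field.ord k d Lv.c + μ) *
        (2 * R * v) ^ d))) Lv.r mB mM) := by
  have hS : ((n + 1) * n + n * (D + 1)) * Field.ord k d Lv.c ≤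
      ((n + 1) * n + n * (D + 3)) * Field.ord k d Lv.c + μ :=
    le_add_right (Nat.mul_le_mul_right _ (by gcongr; omega))
  have hRv : (R * v) ^ d ≤ (2 * R * v) ^ d :=
    Nat.pow_le_pow_left (Nat.mul_le_mul_right _ (Nat.le_mul_of_pos_left R two_pos)) _
  refine exists_data (frameOfLevel_φ_algebraMap p k Lv e n) U hR hK hQ hv Mo.cokilled
    (p_mem_maximalIdeal Mo) (fun V => model_length_eq Mo V) hgenB hgenM Mo.ker_eq.le hU₀ hg
    ((mem_frameOfLevel_C_zero Lv e n).2 hu) (frameOfLevel_cy_order Lv e n)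
    (Nat.mul_le_mul_left _ (Nat.mul_le_mul_left _ (Nat.mul_le_mul (Nat.mul_le_mul_left _ hS) hRv)))
    fun Γ hΓ => ?_
  obtain ⟨hdet, hord⟩ := det_slack_le Lv e n hn hμ hΓ
  refine (length_quot_reduction (p := p) Γ (length_coker_le _ hdet hord (R * v)) n).trans
    (Nat.cast_le.2 ?_)
  rw [← mul_assoc 2 R v]
  have hT : n * Field.ord k d Lv.c + μ ≤
      ((n + 1) * n + n * (D + 3)) * Field.ord k d Lv.c + μ :=
    Nat.add_le_add_right (Nat.mul_le_mul_right _
      ((Nat.le_mul_of_pos_right n (by omega)).trans (Nat.le_add_left _ _))) _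
  calc n * (Lv.r * (p ^ n * (n * Field.ord k d Lv.c + μ)) * (2 * R * v) ^ d)
      = Lv.r * (n * (p ^ n * (n * Field.ord k d Lv.c + μ) * (2 * R * v) ^ d)) := by ring
    _ ≤ _ := Nat.mul_le_mul_left _ (Nat.mul_le_mul_left _
        (Nat.mul_le_mul_right _ (Nat.mul_le_mul_left _ hT)))

end Vale.Agent.P202.Mixed.Lattice
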