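import Vale.Agent.P202.Mixed.Lattice.Norm
import Vale.Agent.P202.Mixed.Lattice.Data
import Vale.Agent.P202.Mixed.Untilt.Defs

/-!
# P202 mixed characteristic, lattice block: untilts over the frame of a level from the steps

Steps whose representatives have `p ^ e`-th powers in a level give `Untilts` over its frame as soon
as `K + d + 3 ≤ Q`.
-/

noncomputable section

namespace Vale.Agent.P202.Mixed.Lattice

open MvPowerSeries

universe u

variable {p : ℕ} [Fact p.Prime] {k : Type u} [_root_.Field k] [CharP k p] [PerfectRing k p] {d : ℕ}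

/-- An element of value at least `1 - 1 / Q` is divisible by the variable to the power `R (Q - 1)`. -/
theorem frameOfLevel_s_pow_dvd_of_deep (Lv : Field.Level p k d) {e n R Q m : ℕ}
    (hQ : p ^ (e + n) = R * Q) {z : Field.T0 k d}
    (hz : ∀ w : Field.OrdVal k d, (((Q - 1 : ℕ) : ℝ) : WithTop ℝ) ≤ Q • w.at z)
    (hm : m ≤ R * (Q - 1)) :
    (frameOfLevel p k Lv e n).s ^ m ∣ (frameOfLevel p k Lv e n).ι z := by
  refine frameOfLevel_s_pow_dvd Lv e n fun w => ?_
  have h := nsmul_le_nsmul_right (hz w) R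
  simp only [Field.OrdVal.at, SubmonoidClass.coe_pow, AddValuation.map_pow, ← WithTop.coe_nsmul] at h ⊢
  rw [hQ, mul_nsmul']
  refine le_trans (WithTop.coe_le_coe.2 ?_) h
  rw [nsmul_eq_mul]
  exact_mod_cast hm

variable {B : Type u} [CommRing B] [Algebra (MvPowerSeries (Fin (d + 1)) (WittVector p k)) B]

/-- Untilts over the frame of a level from steps. -/
def untiltsOfSteps (Lv : Field.Level p k d) {e n R K Q : ℕ} (hQ : p ^ (e + n) = R * Q)
    (hKQ : K + d + 3 ≤ Q) {u : Field.T0 k d} {mB mM : ℕ} {genB : Fin mB → B} {genM : Fin mM → B}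
    (t : ℕ → Field.T0 k d) (St : ∀ l, Untilt.Step (p := p) n Q (t l) u genB genM)
    (ht0 : ∀ l, t l ≠ 0) (ht : ∀ l, t l ^ p ^ e ∈ Lv.carrier)
    (htdeep : ∀ l (w : Field.OrdVal k d), (((Q - 1 : ℕ) : ℝ) : WithTop ℝ) ≤ Q • w.at (t l))
    (hB : ∀ l i, (St l).wB i ^ p ^ e ∈ Lv.carrier) (hM : ∀ l i, (St l).wM i ^ p ^ e ∈ Lv.carrier) :
    Untilts (frameOfLevel p k Lv e n) (evalT (algebraMap (Field.Ser k d) (Field.T0 k d))) B R K
      u genB genM where
  t := t
  t_ne := ht0
  t_mem l := (mem_frameOfLevel_C_zero Lv e n).2 (ht l)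
  t_div l := frameOfLevel_s_pow_dvd_of_deep Lv hQ (htdeep l) (by
    obtain ⟨q, rfl⟩ := Nat.exists_eq_add_of_le hKQ
    show R * (K + 1) + (d + 1) * (R - 1) + n * 0 ≤ R * (K + d + 3 + q - 1)
    rw [Nat.mul_zero, Nat.add_zero, show K + d + 3 + q - 1 = K + 1 + (d + 1 + q) by omega,
      Nat.mul_add R (K + 1)]
    refine Nat.add_le_add_left ((Nat.mul_comm _ _).le.trans ?_) _
    exact Nat.mul_le_mul (Nat.sub_le R 1) (Nat.le_add_right _ _))
  S l := (St l).S
  ring l := (St l).ring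
  j l := (St l).j
  desc l := (St l).desc
  ρ l := (St l).ρ
  ρ_eq l := (St l).ρ_eq
  wB l i := WittVector.teichmuller p ((St l).wB i)
  wB_mem l i := (frameOfLevel p k Lv e n).teichmuller_mem_levW
    ((mem_frameOfLevel_C_zero Lv e n).2 (hB l i))
  wB_eq l i := (St l).wB_eq i
  wM l i := WittVector.teichmuller p ((St l).wM i)
  wM_mem l i := (frameOfLevel p k Lv e n).teichmuller_mem_levW
    ((mem_frameOfLevel_C_zero Lv e n).2 (hM l i))
  wM_div l i := by
    rw [WittVector.map_teichmuller]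
    refine map_dvd _ (frameOfLevel_s_pow_dvd_of_deep Lv hQ ((St l).wM_deep i) ?_)
    obtain ⟨q, rfl⟩ := Nat.exists_eq_add_of_le hKQ
    show R * K + (d + 1) * (R - 1) + n * 0 ≤ R * (K + d + 3 + q - 1)
    rw [Nat.mul_zero, Nat.add_zero, show K + d + 3 + q - 1 = K + (d + 1 + (q + 1)) by omega,
      Nat.mul_add R K]
    refine Nat.add_le_add_left ((Nat.mul_comm _ _).le.trans ?_) _
    exact Nat.mul_le_mul (Nat.sub_le R 1) (Nat.le_add_right _ _)
  wM_eq l i := (St l).wM_eq i

end Vale.Agent.P202.Mixed.Lattice
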