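import Vale.Agent.P202.Mixed.Lattice.Eval

/-!
# P202 mixed characteristic, lattice block: the spanning recursion and the kernel of an untilt

A `Frame` packages the field facts: a perfect domain `T` over `k[[Y]]`, a basis `β`, levels `C i`
of roots, and bounds on coordinates.  From them: Witt vectors of level `0` are spanned over
`W(k)[[Y]]` by the Teichmüller representatives of `β` up to a power of `δ` and modulo `p ^ n`, and
the kernel modulo `p - [t]` is the image of the matrix `δ ^ n p - T'` up to a power of `δ`.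
-/

noncomputable section

namespace Vale.Agent.P202.Mixed.Lattice

open MvPowerSeries Finsupp Matrix

/-- The field facts used by the lattice block. -/
structure Frame (p : ℕ) [Fact p.Prime] (σ : Type*) [Finite σ] (k : Type*) [CommRing k] (T : Type*)
    [CommRing T] (O : Type*) [CommRing O] (μ : Type*) [Fintype μ] (n : ℕ) where
  emb : MvPowerSeries σ k →+* T
  ι : T →+* O
  s : O
  s_ne : s ≠ 0
  β : μ → T
  C : ℕ → Subring T
  cy : MvPowerSeries σ k
  κ : ℕ
  mono : ∀ i, i < n → C i ≤ C (i + 1)
  root : ∀ i, i < n → ∀ a : T, a ^ p ∈ C i → a ∈ C (i + 1)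
  emb_mem : ∀ i, i ≤ n → ∀ g, emb (g ^ p ^ (n - i)) ∈ C i
  β_mem : ∀ j, β j ∈ C 0
  indep : ∀ g : μ → MvPowerSeries σ k, ∑ j, emb (g j) * β j = 0 → g = 0
  coords : ∀ i, i ≤ n → ∀ z ∈ C i, ∃ g : μ → MvPowerSeries σ k,
    emb (cy ^ p ^ n) * z = ∑ j, emb (g j ^ p ^ (n - i)) * β j ∧
      ∀ m : ℕ, s ^ m ∣ ι z → ∀ j, g j ^ p ^ (n - i) ∈ ordIdeal σ k (m - κ)
  saturated : ∀ t ∈ C n, t ≠ 0 → ∀ z, z * t ∈ C n → z ∈ C n
  ord_dvd : ∀ g m, g ∈ ordIdeal σ k m → s ^ m ∣ ι (emb g)

namespace Frame

variable {p : ℕ} [Fact p.Prime] {σ : Type*} [Finite σ] {k : Type*} [CommRing k]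
  {T : Type*} [CommRing T] {O : Type*} [CommRing O] {μ : Type*} [Fintype μ] {n : ℕ}
  (F : Frame p σ k T O μ n)

/-- The map `W(k)[[Y]] → W(T)`. -/
def φ : MvPowerSeries σ (WittVector p k) →+* WittVector p T := evalT F.emb

/-- The element `δ`, close to the Teichmüller representative of the scaled discriminant. -/
def δ : MvPowerSeries σ (WittVector p k) := liftPS p F.cy ^ p ^ n

/-- Linear combinations of the representatives of the basis. -/
def psi : (μ → MvPowerSeries σ (WittVector p k)) →+ WittVector p T where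
  toFun a := ∑ j, F.φ (a j) * WittVector.teichmuller p (F.β j)
  map_zero' := by simp
  map_add' a b := by simp [add_mul, Finset.sum_add_distrib]

theorem psi_apply (a : μ → MvPowerSeries σ (WittVector p k)) :
    F.psi a = ∑ j, F.φ (a j) * WittVector.teichmuller p (F.β j) := rfl

theorem psi_smul (c : MvPowerSeries σ (WittVector p k)) (a : μ → MvPowerSeries σ (WittVector p k)) :
    F.psi (c • a) = F.φ c * F.psi a := by
  simp [psi_apply, Finset.mul_sum, mul_assoc]

theorem psi_coeff_zero (a : μ → MvPowerSeries σ (WittVector p k)) :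
    (F.psi a).coeff 0 = ∑ j, F.emb (MvPowerSeries.map WittVector.constantCoeff (a j)) * F.β j := by
  rw [← WittVector.constantCoeff_apply, psi_apply, map_sum]
  refine Finset.sum_congr rfl fun j _ => ?_
  rw [map_mul, WittVector.constantCoeff_apply, WittVector.constantCoeff_apply, φ, evalT_coeff_zero,
    WittVector.teichmuller_coeff_zero]

/-- Witt vectors with all digits in level `i`. -/
def levW (i : ℕ) : Subring (WittVector p T) := (WittVector.map (F.C i).subtype).range

theorem mem_levW {i : ℕ} {w : WittVector p T} :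
    w ∈ F.levW i ↔ ∀ l, w.coeff l ∈ F.C i := by
  refine ⟨?_, fun h => ⟨WittVector.mk p fun l => ⟨_, h l⟩, ?_⟩⟩
  · rintro ⟨v, rfl⟩ l
    rw [WittVector.map_coeff]
    exact (v.coeff l).2
  · ext l
    rw [WittVector.map_coeff]
    simp

theorem teichmuller_mem_levW {i : ℕ} {z : T} (hz : z ∈ F.C i) :
    WittVector.teichmuller p z ∈ F.levW i :=
  ⟨WittVector.teichmuller p ⟨z, hz⟩, by rw [WittVector.map_teichmuller]; rfl⟩

theorem C_le {i j : ℕ} (h : i ≤ j) (hj : j ≤ n) : F.C i ≤ F.C j := by
  induction h with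
  | refl => exact le_rfl
  | step h ih => exact (ih (by omega)).trans (F.mono _ (by omega))

variable [CharP T p] [PerfectRing T p]

theorem mem_levW_succ_of_p_mul {i : ℕ} (hi : i < n) {w : WittVector p T}
    (h : (p : WittVector p T) * w ∈ F.levW i) : w ∈ F.levW (i + 1) := by
  rw [mem_levW] at h ⊢
  intro l
  refine F.root i hi _ ?_
  have := h (l + 1)
  rwa [mul_comm, WittVector.mul_charP_coeff_succ] at this

theorem φ_δ_sub (r : ℕ) (hr : r ≤ n + 1) : (p : WittVector p T) ^ r ∣
    F.φ F.δ - WittVector.teichmuller p (F.emb (F.cy ^ p ^ n)) :=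
  (pow_dvd_pow _ hr).trans (evalT_lift_pow F.emb F.cy n)

theorem φ_δ_coeff_zero : (F.φ F.δ).coeff 0 = F.emb (F.cy ^ p ^ n) := by
  rw [φ, δ, evalT_coeff_zero, map_pow, map_liftPS]

variable [IsDomain k] [CharP O p] [PerfectRing O p] [IsDomain O]

/-- **The spanning recursion.** -/
theorem expand : ∀ (r i : ℕ), i + r = n → ∀ w ∈ F.levW i, ∀ m : ℕ,
    WittVector.teichmuller p (F.s ^ m) ∣ WittVector.map F.ι w →
    ∃ a : μ → MvPowerSeries σ (WittVector p k),
      (∀ j, a j ∈ ordIdeal σ (WittVector p k) (m - r * F.κ)) ∧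
        (p : WittVector p T) ^ r ∣ F.φ F.δ ^ r * w - F.psi a := by
  intro r
  induction r with
  | zero => exact fun i _ w _ m _ => ⟨0, fun j => zero_mem _, by simp⟩
  | succ r ih =>
    intro i hir w hw m hm
    set c : T := F.emb (F.cy ^ p ^ n) with hc
    obtain ⟨g, hg, hgord⟩ := F.coords i (by omega) _ (F.mem_levW.1 hw 0)
    have hdiv : F.s ^ m ∣ F.ι (w.coeff 0) := by
      have := map_dvd (WittVector.constantCoeff (p := p) (R := O)) hm
      simpa only [WittVector.constantCoeff_apply, WittVector.teichmuller_coeff_zero,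
        WittVector.map_coeff] using this
    have hord := hgord m hdiv
    have hni : n - i = r + 1 := by omega
    rw [hni] at hg hord
    set f : μ → T := fun j => F.emb (g j ^ p ^ (r + 1)) with hf
    set D := WittVector.teichmuller p c * w -
      ∑ j, WittVector.teichmuller p (f j) * WittVector.teichmuller p (F.β j) with hD
    have hD0 : D.coeff 0 = 0 := by
      rw [← WittVector.constantCoeff_apply, hD, map_sub, map_mul, map_sum]
      simp only [map_mul, WittVector.constantCoeff_apply, WittVector.teichmuller_coeff_zero, hf, hc]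
      rw [hg, sub_self]
    have hDlev : D ∈ F.levW i := by
      refine sub_mem (mul_mem (F.teichmuller_mem_levW ?_) hw) (sum_mem fun j _ =>
        mul_mem (F.teichmuller_mem_levW ?_) (F.teichmuller_mem_levW
          (F.C_le (Nat.zero_le i) (by omega) (F.β_mem j))))
      · have := F.emb_mem i (by omega) (F.cy ^ p ^ i)
        rwa [← pow_mul, ← pow_add, Nat.add_sub_cancel' (by omega)] at this
      · rw [hf, ← hni]
        exact F.emb_mem i (by omega) (g j)
    obtain ⟨w₁, hw₁⟩ := (dvd_iff_coeff_zero D).2 hD0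
    rw [hw₁] at hDlev
    have hw₁lev := F.mem_levW_succ_of_p_mul (by omega) hDlev
    have hw₁div : WittVector.teichmuller p (F.s ^ (m - F.κ)) ∣ WittVector.map F.ι w₁ := by
      have h1 : WittVector.teichmuller p (F.s ^ (m - F.κ)) ∣ WittVector.map F.ι D := by
        rw [hD, map_sub, map_mul, map_sum]
        refine dvd_sub (Dvd.dvd.mul_left ((map_dvd _ (pow_dvd_pow _ (Nat.sub_le m F.κ))).trans hm) _)
          (Finset.dvd_sum fun j _ => ?_)
        rw [map_mul, WittVector.map_teichmuller]
        exact Dvd.dvd.mul_right (map_dvd _ (F.ord_dvd _ _ (hord j))) _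
      obtain ⟨v, hv⟩ := h1
      have hv0 : v.coeff 0 = 0 := by
        have h2 := congrArg (WittVector.constantCoeff (p := p) (R := O)) hv
        rw [hw₁] at h2
        simp only [map_mul, map_natCast, CharP.cast_eq_zero, zero_mul, WittVector.constantCoeff_apply,
          WittVector.teichmuller_coeff_zero] at h2
        exact (mul_eq_zero.1 h2.symm).resolve_left (pow_ne_zero _ F.s_ne)
      obtain ⟨v', rfl⟩ := (dvd_iff_coeff_zero v).2 hv0
      refine ⟨v', p_cancel ?_⟩
      rw [← map_natCast (WittVector.map F.ι) p, ← map_mul, ← hw₁, hv, map_natCast]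
      ring
    obtain ⟨a', ha'ord, ha'⟩ := ih (i + 1) (by omega) w₁ hw₁lev _ hw₁div
    set b : μ → MvPowerSeries σ (WittVector p k) := fun j => liftPS p (g j) ^ p ^ (r + 1) with hb
    refine ⟨F.δ ^ r • b + (p : MvPowerSeries σ (WittVector p k)) • a', fun j => ?_, ?_⟩
    · refine add_mem (Ideal.mul_mem_left _ _ ?_) (Ideal.mul_mem_left _ _ ?_)
      · refine ordIdeal_mono ?_
          (liftPS_pow_mem_ordIdeal (hord j) (pow_pos (Fact.out : p.Prime).pos _))
        rw [Nat.succ_mul]
        omega
      · refine ordIdeal_mono ?_ (ha'ord j)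
        rw [Nat.succ_mul]
        omega
    · have e1 : (p : WittVector p T) ^ (r + 1) ∣ F.φ F.δ * w - F.psi b - D := by
        have : F.φ F.δ * w - F.psi b - D = (F.φ F.δ - WittVector.teichmuller p c) * w -
            ∑ j, (F.φ (b j) - WittVector.teichmuller p (f j)) * WittVector.teichmuller p (F.β j) := by
          simp only [hD, psi_apply, sub_mul, Finset.sum_sub_distrib]
          ring
        rw [this]
        refine dvd_sub (Dvd.dvd.mul_right (F.φ_δ_sub _ (by omega)) _)
          (Finset.dvd_sum fun j _ => Dvd.dvd.mul_right ?_ _)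
        exact (pow_dvd_pow _ (by omega)).trans (evalT_lift_pow F.emb (g j) (r + 1))
      have e2 : F.φ F.δ ^ (r + 1) * w -
            F.psi (F.δ ^ r • b + (p : MvPowerSeries σ (WittVector p k)) • a') =
          F.φ F.δ ^ r * (F.φ F.δ * w - F.psi b - D) +
            (p : WittVector p T) * (F.φ F.δ ^ r * w₁ - F.psi a') := by
        rw [map_add, psi_smul, psi_smul, map_pow, map_natCast, hw₁]
        ring
      rw [e2]
      refine dvd_add (Dvd.dvd.mul_left e1 _) ?_
      rw [pow_succ']
      exact mul_dvd_mul_left _ ha'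

/-- Level-zero Witt vectors are spanned up to `δ ^ n` modulo `p ^ n`, with control of orders. -/
theorem expand_zero {w : WittVector p T} (hw : w ∈ F.levW 0) (m : ℕ)
    (hm : WittVector.teichmuller p (F.s ^ m) ∣ WittVector.map F.ι w) :
    ∃ a : μ → MvPowerSeries σ (WittVector p k),
      (∀ j, a j ∈ ordIdeal σ (WittVector p k) (m - n * F.κ)) ∧
        (p : WittVector p T) ^ n ∣ F.φ F.δ ^ n * w - F.psi a :=
  F.expand n 0 (Nat.zero_add n) w hw m hm

variable [CharP k p] [PerfectRing k p]

omit [IsDomain k] [CharP O p] [PerfectRing O p] [IsDomain O] in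
theorem eq_p_smul_of_coeff_zero {a : μ → MvPowerSeries σ (WittVector p k)}
    (h : (F.psi a).coeff 0 = 0) :
    ∃ a₁, a = (p : MvPowerSeries σ (WittVector p k)) • a₁ := by
  rw [psi_coeff_zero] at h
  have h0 := F.indep _ h
  choose a₁ ha₁ using fun j => exists_eq_p_mul (a j) (congrFun h0 j)
  exact ⟨a₁, funext ha₁⟩

omit [IsDomain k] [CharP O p] [PerfectRing O p] [IsDomain O] in
/-- Combinations of the basis are injective modulo `p ^ r`. -/
theorem dvd_of_psi {r : ℕ} {a : μ → MvPowerSeries σ (WittVector p k)}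
    (h : (p : WittVector p T) ^ r ∣ F.psi a) (j : μ) :
    (p : MvPowerSeries σ (WittVector p k)) ^ r ∣ a j := by
  induction r generalizing a with
  | zero => simp
  | succ r ih =>
    obtain ⟨u, hu⟩ := h
    have h0 : (F.psi a).coeff 0 = 0 := by
      rw [← dvd_iff_coeff_zero, hu, pow_succ', mul_assoc]
      exact dvd_mul_right _ _
    obtain ⟨a₁, rfl⟩ := F.eq_p_smul_of_coeff_zero h0
    rw [psi_smul, map_natCast, pow_succ', mul_assoc] at hu
    rw [Pi.smul_apply, smul_eq_mul, pow_succ']
    exact mul_dvd_mul_left _ (ih ⟨u, p_cancel hu⟩)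

end Frame

end Vale.Agent.P202.Mixed.Lattice
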